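import Vale.Agent.P032.H183.HubW

/-!
# P032: the window of a hub (wild frame `Irr U T` only)

`P = pt z p` a three-coloured end `{i, o, x}` of an exact arc of the two-pair centre `z` (side `s`), with an `x`-run on
the other side, and two complementary corners `w = pt P (p + s κ)`, `w' = pt P (p - s κ')`, `κ + κ' > 3`
(units of 60 degrees).

* `off_nhds` : a colour carried by `S(V)` on both sides of a point is absent at the other neighbours of the point;
* `two_arcs` : two arcs with the colour `i`, starting at one point, are on one side of `S(t)`, `i ∈ T t`;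
* `HubW.no_io`, `no_ix`, `no_ox`, `no_mid` : no point `V = pt P (p + s τ)`, `-κ' < τ < κ`, has two of the colours
  `i, o, x` (for `τ < 0` only `i, o`);
* `HubW.window` : no open interval of directions longer than two (120 degrees) at which the sixth colour is absent
  on `S(P)` (helper510's Lemma B, wild).
-/

open Set Filter Topology Metric

noncomputable section

namespace Vale.Agent.P032.H657

open Vale.Agent.P032.Six Vale.Agent.P032.Words Vale.Agent.P032.S5.H767 Vale.Agent.P032.H892 Vale.Agent.P032.H183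

variable {U : Fin 6 → Set ℂ} {T : ℂ → Set (Fin 6)}

/-! ### tools -/

/-- both sides of a point -/
theorem nhds_of_sides {V : ℂ} {θ : ℝ} {i : Fin 6} (h : Irr U T)
    (h1 : ∀ᶠ r in 𝓝[>] (0 : ℝ), i ∈ T (pt V (θ + r))) (h2 : ∀ᶠ r in 𝓝[>] (0 : ℝ), i ∈ T (pt V (θ - r))) :
    ∃ δ > 0, ∀ t : ℝ, |t| < δ → i ∈ T (pt V (θ + t)) := by
  obtain ⟨δ₁, hδ₁, H₁⟩ := exists_arc h (C := V) (p := θ) (s := 1) (by simpa using h1)
  obtain ⟨δ₂, hδ₂, H₂⟩ := exists_arc h (C := V) (p := θ) (s := -1)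
    (h2.mono fun r hr => by rwa [show θ + -1 * r = θ - r by ring])
  refine ⟨min δ₁ δ₂, lt_min hδ₁ hδ₂, fun t ht => ?_⟩
  rcases le_total 0 t with h0 | h0
  · have := H₁ t h0 (lt_of_lt_of_le (by rwa [abs_of_nonneg h0] at ht) (min_le_left _ _))
    rwa [one_mul] at this
  · have := H₂ (-t) (by linarith) (lt_of_lt_of_le (by rwa [abs_of_nonpos h0] at ht) (min_le_right _ _))
    rwa [show θ + -1 * -t = θ + t by ring] at this

/-- a colour carried by `S(V)` near a point of `S(V)` is absent at its other neighbours -/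
theorem off_nhds (h : Irr U T) {V : ℂ} {θ q : ℝ} {i : Fin 6} (hN : ∃ δ > 0, ∀ t : ℝ, |t| < δ → i ∈ T (pt V (θ + t)))
    (hq : Real.sin ((q - θ) * (Real.pi / 3)) ≠ 0) : i ∉ T (pt (pt V θ) q) := by
  obtain ⟨δ, hδ, hd⟩ := hN
  have := off_mid h (z := V) (p := θ - δ / 2) (s := 1) (q := q) (δ := δ) (r := δ / 2) (i := i) (Or.inl rfl)
    (fun t h0 h1 => by
      have := hd (t - δ / 2) (by rw [abs_lt]; constructor <;> linarith)
      rwa [show θ + (t - δ / 2) = θ - δ / 2 + 1 * t by ring] at this)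
    (by linarith) (by linarith) (by rwa [show θ - δ / 2 + 1 * (δ / 2) = θ by ring])
  rwa [show θ - δ / 2 + 1 * (δ / 2) = θ by ring] at this

/-- two arcs with one colour from one point are on the same side of the unit circle about a point with this colour -/
theorem two_arcs (h : Irr U T) {C₁ C₂ : ℂ} {p₁ s₁ p₂ s₂ : ℝ} {i : Fin 6} (hP : pt C₁ p₁ = pt C₂ p₂)
    (ha₁ : ∀ᶠ r in 𝓝[>] (0 : ℝ), i ∈ T (pt C₁ (p₁ + s₁ * r))) (ha₂ : ∀ᶠ r in 𝓝[>] (0 : ℝ), i ∈ T (pt C₂ (p₂ + s₂ * r)))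
    {t : ℂ} (ht : i ∈ T t) (hn : ∃ᶠ r in 𝓝[>] (0 : ℝ), dist (pt C₁ (p₁ + s₁ * r)) t < 1)
    (hf : ∃ᶠ r in 𝓝[>] (0 : ℝ), 1 < dist (pt C₂ (p₂ + s₂ * r)) t) : False := by
  obtain ⟨δ₁, hδ₁, H₁⟩ := exists_arc h ha₁
  obtain ⟨δ₂, hδ₂, H₂⟩ := exists_arc h ha₂
  obtain ⟨r₁, hr₁, hp₁, hl₁⟩ := (hn.and_eventually (show ∀ᶠ r in 𝓝[>] (0 : ℝ), 0 < r ∧ r < δ₁ by
    filter_upwards [self_mem_nhdsWithin, mem_nhdsWithin_of_mem_nhds (Iio_mem_nhds hδ₁)] with r a b using ⟨a, b⟩)).exists
  obtain ⟨r₂, hr₂, hp₂, hl₂⟩ := (hf.and_eventually (show ∀ᶠ r in 𝓝[>] (0 : ℝ), 0 < r ∧ r < δ₂ by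
    filter_upwards [self_mem_nhdsWithin, mem_nhdsWithin_of_mem_nhds (Iio_mem_nhds hδ₂)] with r a b using ⟨a, b⟩)).exists
  have c1 : IsPreconnected ((fun r : ℝ => pt C₁ (p₁ + s₁ * r)) '' Icc 0 r₁) :=
    isPreconnected_Icc.image _ ((continuous_pt C₁).comp (by fun_prop)).continuousOn
  have c2 : IsPreconnected ((fun r : ℝ => pt C₂ (p₂ + s₂ * r)) '' Icc 0 r₂) :=
    isPreconnected_Icc.image _ ((continuous_pt C₂).comp (by fun_prop)).continuousOn
  have m1 : pt C₁ p₁ ∈ (fun r : ℝ => pt C₁ (p₁ + s₁ * r)) '' Icc 0 r₁ := ⟨0, ⟨le_rfl, hp₁.le⟩, by simp⟩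
  have m2 : pt C₁ p₁ ∈ (fun r : ℝ => pt C₂ (p₂ + s₂ * r)) '' Icc 0 r₂ := ⟨0, ⟨le_rfl, hp₂.le⟩, by simp [hP]⟩
  refine crossing h (IsPreconnected.union _ m1 m2 c1 c2) (i := i) ?_ ht (Or.inl ⟨r₁, ⟨hp₁.le, le_rfl⟩, rfl⟩)
    (Or.inr ⟨r₂, ⟨hp₂.le, le_rfl⟩, rfl⟩) hr₁ hr₂
  rintro _ (⟨r, hr, rfl⟩ | ⟨r, hr, rfl⟩)
  · exact H₁ r hr.1 (lt_of_le_of_lt hr.2 hl₁)
  · exact H₂ r hr.1 (lt_of_le_of_lt hr.2 hl₂)

/-- the circle about `V` is outside the unit disc about the opposite neighbour of its point -/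
theorem tangent_far (V : ℂ) (t σ : ℝ) (hσ : σ = 1 ∨ σ = -1) :
    ∀ᶠ r in 𝓝[>] (0 : ℝ), 1 < dist (pt V (t + 3 - σ * r)) (pt (pt V (t + 3)) (t + 3)) := by
  filter_upwards [self_mem_nhdsWithin, mem_nhdsWithin_of_mem_nhds (Iio_mem_nhds (show (0 : ℝ) < 1 by norm_num))]
    with r a b
  have a' : 0 < r := a
  have b' : r < 1 := b
  have h0 : dist (pt V (t + 3 - σ * r)) (pt (pt V (t + 3)) (t + 3)) ^ 2 =
      5 - 4 * Real.cos (σ * r * (Real.pi / 3)) := by
    rw [sq_dist]
    unfold pt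
    simp only [Complex.add_re, Complex.add_im, cis_re, cis_im]
    have e1 : (t + 3 - σ * r) * (Real.pi / 3) = (t + 3) * (Real.pi / 3) - σ * r * (Real.pi / 3) := by ring
    rw [e1, Real.cos_sub, Real.sin_sub]
    set A := (t + 3) * (Real.pi / 3)
    set B := σ * r * (Real.pi / 3)
    have pA := Real.sin_sq_add_cos_sq A
    have pB := Real.sin_sq_add_cos_sq B
    have eA : Real.sin A ^ 2 = 1 - Real.cos A ^ 2 := by linarith
    have eB : Real.sin B ^ 2 = 1 - Real.cos B ^ 2 := by linarith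
    ring_nf
    rw [eA, eB]
    ring_nf
    try rw [eA]
    try ring_nf
  have h1 : Real.cos (σ * r * (Real.pi / 3)) < 1 := by
    have hb : 0 < r * (Real.pi / 3) := by positivity
    have hb' : r * (Real.pi / 3) < Real.pi := by nlinarith [Real.pi_pos]
    have h2 : Real.cos (r * (Real.pi / 3)) < 1 := by
      have := Real.cos_lt_cos_of_nonneg_of_le_pi le_rfl hb'.le hb
      rwa [Real.cos_zero] at this
    rcases hσ with rfl | rfl
    · rwa [one_mul]
    · rwa [show -1 * r * (Real.pi / 3) = -(r * (Real.pi / 3)) by ring, Real.cos_neg]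
  have h2 := dist_nonneg (x := pt V (t + 3 - σ * r)) (y := pt (pt V (t + 3)) (t + 3))
  nlinarith

/-- a point of `S(P)` at distance one from `pt P u`, turned by 60 degrees -/
theorem pt_turn (P : ℂ) (u : ℝ) {s : ℝ} (hs : s = 1 ∨ s = -1) : pt (pt P u) (u + 2 * s) = pt P (u + s) := by
  rcases hs with rfl | rfl
  · have := pt_sum P u
    rw [pt_pg]
    rw [show u + 2 * (1 : ℝ) = u + 2 by ring]
    linear_combination this
  · have := pt_sum P (u - 2)
    rw [show u - 2 + 2 = u by ring, show u - 2 + 1 = u + -1 by ring] at this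
    rw [pt_pg]
    rw [show u + 2 * (-1 : ℝ) = u - 2 by ring]
    linear_combination this


theorem sin_ne {t : ℝ} (h0 : t ≠ 0) (h1 : -3 < t) (h2 : t < 3) : Real.sin (t * (Real.pi / 3)) ≠ 0 := by
  rcases lt_or_gt_of_ne h0 with h | h
  · exact (Hub.sin_lt h1 h).ne
  · exact (Hub.sin_gt h h2).ne'

theorem sin_sg {s : ℝ} (hs : s = 1 ∨ s = -1) (t : ℝ) :
    s * Real.sin (s * t * (Real.pi / 3)) = Real.sin (t * (Real.pi / 3)) := by
  rcases hs with rfl | rfl
  · simp
  · rw [show -1 * t * (Real.pi / 3) = -(t * (Real.pi / 3)) by ring, Real.sin_neg]; ring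

theorem sin_sg_ne {s : ℝ} (hs : s = 1 ∨ s = -1) {t : ℝ} (h : Real.sin (t * (Real.pi / 3)) ≠ 0) :
    Real.sin (s * t * (Real.pi / 3)) ≠ 0 := by
  intro h0
  apply h
  rw [← sin_sg hs t, h0, mul_zero]

/-! ### palettes of a circle through the hub -/

section sides

variable {z : ℂ} {p s : ℝ} {i o x : Fin 6}

/-- inside `D(z)` near the hub only `i, x` -/
theorem HubIn (H : HubW U T z p s i o x) : ∀ᶠ y in 𝓝 (pt z p), dist y z < 1 → T y ⊆ {i, x} := by
  filter_upwards [H.sd, H.irr.nhd (pt z p)] with y h1 h2 h4 j hj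
  have := h2 hj
  rw [H.pal] at this
  rcases this with rfl | rfl | h6
  · simp
  · exact absurd (H.irr.sub _ hj) (h1.2 h4)
  · rw [mem_singleton_iff] at h6; subst h6; simp

/-- outside `D(z)` near the hub only `o, x` -/
theorem HubOut (H : HubW U T z p s i o x) : ∀ᶠ y in 𝓝 (pt z p), 1 < dist y z → T y ⊆ {o, x} := by
  filter_upwards [H.sd, H.irr.nhd (pt z p)] with y h1 h2 h4 j hj
  have := h2 hj
  rw [H.pal] at this
  rcases this with rfl | rfl | h6
  · exact absurd (H.irr.sub _ hj) (h1.1 h4)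
  · simp
  · rw [mem_singleton_iff] at h6; subst h6; simp

/-- `T y` inside `{k, m}`, `y` at distance one from a point with the colour `k`: `m ∈ T y` -/
theorem other_mem (h : Irr U T) {V y : ℂ} {k m : Fin 6} (hk : k ∈ Pal U V) (hd : dist y V = 1) (hT : T y ⊆ {k, m}) :
    m ∈ T y := by
  by_contra hm
  refine h.mx.notMem hk hd (h.mem_of_single fun j hj => ?_)
  rcases hT hj with rfl | h7
  · rfl
  · rw [mem_singleton_iff] at h7; subst h7; exact absurd hj hm

/-- the two halves of `S(V)` at the hub, `V = pt (pt z p) t`: one inside, one outside `D(z)` -/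
theorem halves (H : HubW U T z p s i o x) {t σ : ℝ} (hσ : σ = 1 ∨ σ = -1)
    (h1 : 0 < σ * Real.sin ((t - p) * (Real.pi / 3))) :
    (∀ᶠ τ in 𝓝[>] (0 : ℝ), T (pt (pt (pt z p) t) (t + 3 - σ * τ)) ⊆ {i, x}) ∧
      ∀ᶠ τ in 𝓝[>] (0 : ℝ), T (pt (pt (pt z p) t) (t + 3 + σ * τ)) ⊆ {o, x} := by
  have eP : pt (pt (pt z p) t) (t + 3) = pt z p := by rw [pt_three]; unfold pt; ring
  have hσ' : -σ = 1 ∨ -σ = -1 := by rcases hσ with rfl | rfl <;> norm_num
  have ht := tendsto_ptc (pt (pt z p) t) t σ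
  have ht' := tendsto_ptc (pt (pt z p) t) t (-σ)
  rw [eP] at ht ht'
  constructor
  · filter_upwards [(circ_side z hσ).1 h1, ht.eventually (HubIn H)] with τ h2 h3 using h3 h2
  · filter_upwards [(circ_side z (p := p) (q := t) hσ').2 (by linarith), ht'.eventually (HubOut H)] with τ h2 h3
    rw [show t + 3 + σ * τ = t + 3 - -σ * τ by ring]
    exact h3 h2

/-- **`i, o` in `T V`**: the third colour is carried by `S(V)` near the hub -/
theorem no_io (H : HubW U T z p s i o x) {t q : ℝ} (ht : Real.sin ((t - p) * (Real.pi / 3)) ≠ 0)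
    (hi : i ∈ Pal U (pt (pt z p) t)) (ho : o ∈ Pal U (pt (pt z p) t))
    (hq : Real.sin ((q - t) * (Real.pi / 3)) ≠ 0) : x ∉ T (pt (pt z p) q) := by
  have eP : pt (pt (pt z p) t) (t + 3) = pt z p := by rw [pt_three]; unfold pt; ring
  obtain ⟨σ, hσ, h1⟩ : ∃ σ : ℝ, (σ = 1 ∨ σ = -1) ∧ 0 < σ * Real.sin ((t - p) * (Real.pi / 3)) := by
    rcases lt_or_gt_of_ne ht with h | h
    · exact ⟨-1, Or.inr rfl, by linarith⟩
    · exact ⟨1, Or.inl rfl, by linarith⟩
  obtain ⟨h2, h3⟩ := halves H hσ h1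
  have h4 : ∀ᶠ τ in 𝓝[>] (0 : ℝ), x ∈ T (pt (pt (pt z p) t) (t + 3 - σ * τ)) :=
    h2.mono fun τ h => other_mem H.irr hi (dist_pt _ _) h
  have h5 : ∀ᶠ τ in 𝓝[>] (0 : ℝ), x ∈ T (pt (pt (pt z p) t) (t + 3 + σ * τ)) :=
    h3.mono fun τ h => other_mem H.irr ho (dist_pt _ _) h
  have h6 : ∃ δ > 0, ∀ r : ℝ, |r| < δ → x ∈ T (pt (pt (pt z p) t) (t + 3 + r)) := by
    rcases hσ with rfl | rfl
    · exact nhds_of_sides H.irr (by simpa using h5) (by simpa using h4)
    · refine nhds_of_sides H.irr (h4.mono fun r hr => ?_) (h5.mono fun r hr => ?_)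
      · rwa [show t + 3 - -1 * r = t + 3 + r by ring] at hr
      · rwa [show t + 3 + -1 * r = t + 3 - r by ring] at hr
  have h7 := off_nhds H.irr h6 (q := q) (by
    rw [show (q - (t + 3)) * (Real.pi / 3) = (q - t) * (Real.pi / 3) - Real.pi by ring, Real.sin_sub_pi]
    exact neg_ne_zero.2 hq)
  rwa [eP] at h7

/-- the tangent circle (`t = p`): outside `D(z)` on both sides -/
theorem tangent_side (H : HubW U T z p s i o x) {k m : Fin 6} (hkm : ({o, x} : Set (Fin 6)) = {k, m})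
    (hk : k ∈ Pal U (pt (pt z p) p)) {q : ℝ} (hq : Real.sin ((q - p) * (Real.pi / 3)) ≠ 0) :
    m ∉ T (pt (pt z p) q) := by
  have eP : pt (pt (pt z p) p) (p + 3) = pt z p := by rw [pt_three]; unfold pt; ring
  have ez : pt (pt z p) (p + 3) = z := Hub.pt_back z p
  have key : ∀ σ : ℝ, (σ = 1 ∨ σ = -1) → ∀ᶠ τ in 𝓝[>] (0 : ℝ), m ∈ T (pt (pt (pt z p) p) (p + 3 - σ * τ)) := by
    intro σ hσ
    have ht := tendsto_ptc (pt (pt z p) p) p σ
    rw [eP] at ht
    have h1 := tangent_far (pt (pt z p) p) p σ hσ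
    rw [eP, ez] at h1
    filter_upwards [h1, ht.eventually (HubOut H)] with τ h2 h3
    exact other_mem H.irr hk (dist_pt _ _) (by rw [← hkm]; exact h3 h2)
  have h6 : ∃ δ > 0, ∀ r : ℝ, |r| < δ → m ∈ T (pt (pt (pt z p) p) (p + 3 + r)) := by
    refine nhds_of_sides H.irr ((key (-1) (Or.inr rfl)).mono fun r hr => ?_) ((key 1 (Or.inl rfl)).mono fun r hr => ?_)
    · rwa [show p + 3 - -1 * r = p + 3 + r by ring] at hr
    · rwa [show p + 3 - 1 * r = p + 3 - r by ring] at hr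
  have h7 := off_nhds H.irr h6 (q := q) (by
    rw [show (q - (p + 3)) * (Real.pi / 3) = (q - p) * (Real.pi / 3) - Real.pi by ring, Real.sin_sub_pi]
    exact neg_ne_zero.2 hq)
  rwa [eP] at h7

/-- **`i, x` in `T V`**, `V` between the hub direction and the corner: impossible -/
theorem no_ix (H : HubW U T z p s i o x) {κ τ : ℝ} (K : CorW U T z p s i o x (κ + 3 / 2) (p + s * κ)) (h0 : 0 < τ)
    (h1 : τ < κ) (h2 : κ < 3) (hi : i ∈ Pal U (pt (pt z p) (p + s * τ))) (hx : x ∈ Pal U (pt (pt z p) (p + s * τ))) :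
    False := by
  have hr : Rel p s (τ + 3 / 2) (p + s * τ) := ⟨by linarith, by linarith, Or.inl (by ring)⟩
  have h3 := H.dir_x K (H.dr_inner hr hi hx).1
  rw [show τ + 3 / 2 - (κ + 3 / 2) = τ - κ by ring] at h3
  have h4 := Hub.sin_lt (t := τ - κ) (by linarith) (by linarith)
  linarith

/-- **`o, x` in `T V`**, `V` on the side of the arc: impossible if there is a corner on the other side whose palette
contains `o` -/
theorem no_ox (H : HubW U T z p s i o x) {κ' τ : ℝ} (K' : CorW U T z p s i o x (9 / 2 - κ') (p - s * κ'))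
    (hF : ∀ᶠ r in 𝓝[>] (0 : ℝ), x ∈ T (pt z (p - s * r))) (ho' : o ∈ T (pt (pt z p) (p - s * κ'))) (hκ0 : 0 < κ')
    (hκ : κ' < 3) (h0 : 0 < τ) (h1 : τ < 3) (ho : o ∈ Pal U (pt (pt z p) (p + s * τ)))
    (hx : x ∈ T (pt (pt z p) (p + s * τ))) : False := by
  have hs := H.sg
  have hs' : -s = 1 ∨ -s = -1 := by rcases hs with h | h <;> rw [h] <;> norm_num
  have eP : ∀ t : ℝ, pt (pt (pt z p) t) (t + 3) = pt z p := fun t => by rw [pt_three]; unfold pt; ring
  have hr : Rel p s (τ + 3 / 2) (p + s * τ) := ⟨by linarith, by linarith, Or.inl (by ring)⟩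
  have h3 := H.dir_x K' (H.dr_outer hr ho (H.irr.sub _ hx)).1
  rw [show (τ + 3 / 2 - 3 - (9 / 2 - κ')) * (Real.pi / 3) = (τ + κ') * (Real.pi / 3) - 2 * Real.pi by ring,
    Real.sin_sub_two_pi] at h3
  have h4 : τ + κ' ≤ 3 := by
    by_contra hcon
    push Not at hcon
    have h5 : Real.sin ((τ + κ') * (Real.pi / 3)) < 0 := by
      have := Hub.sin_gt (t := τ + κ' - 3) (by linarith) (by linarith)
      rw [show (τ + κ' - 3) * (Real.pi / 3) = (τ + κ') * (Real.pi / 3) - Real.pi by ring, Real.sin_sub_pi] at this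
      linarith
    linarith
  have hF' : ∀ᶠ r in 𝓝[>] (0 : ℝ), x ∈ T (pt z (p + -s * r)) :=
    hF.mono fun r hr => by rwa [show p + -s * r = p - s * r by ring]
  have q1 : s * Real.sin ((p - s * κ' - p) * (Real.pi / 3)) < 0 := by
    have := sin_sg hs' κ'
    have e : (p - s * κ' - p) * (Real.pi / 3) = -s * κ' * (Real.pi / 3) := by ring
    rw [e]
    have h6 := Hub.sin_gt hκ0 hκ
    linarith
  have q2 : 0 < s * Real.sin ((p + s * τ - p) * (Real.pi / 3)) := by
    rw [show (p + s * τ - p) * (Real.pi / 3) = s * τ * (Real.pi / 3) by ring, sin_sg hs]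
    exact Hub.sin_gt h0 h1
  rcases h4.lt_or_eq with h4 | h4
  · -- the outer arc of the other corner runs towards `V`, the `x`-run is far from `V`
    have h5 := H.exact_out hs q1 (H.irr.sub _ ho') (H.irr.sub _ (H.xw K'))
    have h6 : 0 < -s * Real.sin ((p + s * τ - (p - s * κ' + 3)) * (Real.pi / 3)) := by
      rw [show (p + s * τ - (p - s * κ' + 3)) * (Real.pi / 3) = s * (τ + κ') * (Real.pi / 3) - Real.pi by ring,
        Real.sin_sub_pi]
      have := sin_sg hs (τ + κ')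
      have h7 := Hub.sin_gt (t := τ + κ') (by linarith) h4
      linarith
    have h7 := (ev_pos (pt (pt z p) (p - s * κ')) hs' h6).1
    rw [eP] at h7
    have h8 := (ev_pos z hs q2).2
    refine two_arcs H.irr (C₁ := pt (pt z p) (p - s * κ')) (p₁ := p - s * κ' + 3) (s₁ := -s) (C₂ := z) (p₂ := p)
      (s₂ := -s) (eP _) (h5.mono fun r hr => ?_) hF' hx h7.frequently (h8.mono fun r hr => ?_).frequently
    · rw [show p - s * κ' + 3 + -s * r = p - s * κ' + 3 - s * r by ring, hr]; simp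
    · rwa [show p + -s * r = p - s * r by ring]
  · -- antipodal
    have h5 := H.exact_out (q := p + s * τ) hs' (by linarith) ho (H.irr.sub _ hx)
    have h6 := tangent_far (pt (pt z p) (p + s * τ)) (p + s * τ) (-s) hs'
    rw [eP] at h6
    have e1 : pt (pt z p) (p + s * τ + 3) = pt (pt z p) (p - s * κ') := by
      have : τ = 3 - κ' := by linarith
      rw [this]
      rcases hs with rfl | rfl
      · rw [show p + 1 * (3 - κ') + 3 = p - 1 * κ' + 6 by ring, pt_six]
      · rw [show p + -1 * (3 - κ') + 3 = p - -1 * κ' by ring]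
    rw [e1] at h6
    have h8 := (ev_neg z hs q1).2
    refine two_arcs H.irr (C₁ := z) (p₁ := p) (s₁ := -s) (C₂ := pt (pt z p) (p + s * τ)) (p₂ := p + s * τ + 3)
      (s₂ := s) (eP _).symm hF' (h5.mono fun r hr => ?_) (H.xw K') (h8.mono fun r hr => ?_).frequently
      (h6.mono fun r hr => ?_).frequently
    · rw [show p + s * τ + 3 + s * r = p + s * τ + 3 - -s * r by ring, hr]; simp
    · rwa [show p + -s * r = p - s * r by ring]
    · rwa [show p + s * τ + 3 + s * r = p + s * τ + 3 - -s * r by ring]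

/-- **two corners on both sides, more than 180 degrees apart**: the outer colour is in the corner on the side of the
run -/
theorem outer_mem (H : HubW U T z p s i o x) {κ κ' : ℝ} (K : CorW U T z p s i o x (κ + 3 / 2) (p + s * κ))
    (K' : CorW U T z p s i o x (9 / 2 - κ') (p - s * κ')) (hκ : 3 < κ + κ') :
    o ∈ T (pt (pt z p) (p - s * κ')) ∧ i ∉ T (pt (pt z p) (p - s * κ')) := by
  have h1 : i ∉ T (pt (pt z p) (p - s * κ')) := fun h => by
    have := H.le_of_inner K' K h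
    linarith
  exact ⟨K'.io.resolve_left h1, h1⟩

/-- **(B) no swap point**: no `V = pt (pt z p) (p + s τ)`, `-κ' < τ < κ`, has two of the colours `i, o, x`
(over the run `x ∉ T V` is assumed) -/
theorem no_two (H : HubW U T z p s i o x) {κ κ' : ℝ} (K : CorW U T z p s i o x (κ + 3 / 2) (p + s * κ))
    (K' : CorW U T z p s i o x (9 / 2 - κ') (p - s * κ')) (hκ : 3 < κ + κ')
    (hF : ∀ᶠ r in 𝓝[>] (0 : ℝ), x ∈ T (pt z (p - s * r))) {τ : ℝ} (h1 : -κ' < τ) (h2 : τ < κ)
    (hx : τ < 0 → x ∉ T (pt (pt z p) (p + s * τ))) :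
    ¬ (i ∈ T (pt (pt z p) (p + s * τ)) ∧ o ∈ T (pt (pt z p) (p + s * τ))) ∧
      ¬ (i ∈ T (pt (pt z p) (p + s * τ)) ∧ x ∈ T (pt (pt z p) (p + s * τ))) ∧
        ¬ (o ∈ T (pt (pt z p) (p + s * τ)) ∧ x ∈ T (pt (pt z p) (p + s * τ))) := by
  have hκ1 : κ < 3 := by linarith [K.rel.2.1]
  have hκ2 : κ' < 3 := by linarith [K'.rel.1]
  have hκ3 : 0 < κ := by linarith
  have hκ4 : 0 < κ' := by linarith
  have hs := H.sg
  obtain ⟨ho', hi'⟩ := outer_mem H K K' hκ
  have hw := H.xw K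
  have hw' := H.xw K'
  rcases lt_trichotomy τ 0 with h0 | h0 | h0
  · refine ⟨fun h => ?_, fun h => hx h0 h.2, fun h => hx h0 h.2⟩
    refine no_io H (t := p + s * τ) (q := p - s * κ') ?_ (H.irr.sub _ h.1) (H.irr.sub _ h.2) ?_ hw'
    · rw [show (p + s * τ - p) * (Real.pi / 3) = s * τ * (Real.pi / 3) by ring]
      exact sin_sg_ne hs (sin_ne h0.ne (by linarith) (by linarith))
    · rw [show (p - s * κ' - (p + s * τ)) * (Real.pi / 3) = s * (-(κ' + τ)) * (Real.pi / 3) by ring]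
      exact sin_sg_ne hs (sin_ne (by linarith) (by linarith) (by linarith))
  · subst h0
    rw [mul_zero, add_zero]
    have e1 : Real.sin ((p + s * κ - p) * (Real.pi / 3)) ≠ 0 := by
      rw [show (p + s * κ - p) * (Real.pi / 3) = s * κ * (Real.pi / 3) by ring]
      exact sin_sg_ne hs (sin_ne hκ3.ne' (by linarith) hκ1)
    have e2 : Real.sin ((p - s * κ' - p) * (Real.pi / 3)) ≠ 0 := by
      rw [show (p - s * κ' - p) * (Real.pi / 3) = s * (-κ') * (Real.pi / 3) by ring]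
      exact sin_sg_ne hs (sin_ne (by linarith) (by linarith) (by linarith))
    have k1 : o ∉ T (pt (pt z p) p) := fun h =>
      tangent_side H (k := o) (m := x) rfl (H.irr.sub _ h) e1 hw
    have k2 : x ∉ T (pt (pt z p) p) := fun h =>
      tangent_side H (k := x) (m := o) (pair_comm _ _) (H.irr.sub _ h) e2 ho'
    exact ⟨fun h => k1 h.2, fun h => k2 h.2, fun h => k1 h.1⟩
  · refine ⟨fun h => ?_, fun h => no_ix H K h0 h2 hκ1 (H.irr.sub _ h.1) (H.irr.sub _ h.2), fun h =>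
      no_ox H K' hF ho' hκ4 hκ2 h0 (by linarith) (H.irr.sub _ h.1) h.2⟩
    refine no_io H (t := p + s * τ) (q := p + s * κ) ?_ (H.irr.sub _ h.1) (H.irr.sub _ h.2) ?_ hw
    · rw [show (p + s * τ - p) * (Real.pi / 3) = s * τ * (Real.pi / 3) by ring]
      exact sin_sg_ne hs (sin_ne h0.ne' (by linarith) (by linarith))
    · rw [show (p + s * κ - (p + s * τ)) * (Real.pi / 3) = s * (κ - τ) * (Real.pi / 3) by ring]
      exact sin_sg_ne hs (sin_ne (by linarith) (by linarith) (by linarith))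

/-- **(B), counting form**: a point `V = pt (pt z p) (p + s τ)` with `c, d` and without the sixth colour has at most
three colours -/
theorem no_swap (H : HubW U T z p s i o x) {κ κ' : ℝ} (K : CorW U T z p s i o x (κ + 3 / 2) (p + s * κ))
    (K' : CorW U T z p s i o x (9 / 2 - κ') (p - s * κ')) (hκ : 3 < κ + κ')
    (hF : ∀ᶠ r in 𝓝[>] (0 : ℝ), x ∈ T (pt z (p - s * r))) {c d y : Fin 6} (nd : [i, o, c, d, x, y].Nodup) {τ : ℝ}
    (h1 : -κ' < τ) (h2 : τ < κ) (hx : τ < 0 → x ∉ T (pt (pt z p) (p + s * τ)))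
    (hy : y ∉ T (pt (pt z p) (p + s * τ))) : (T (pt (pt z p) (p + s * τ))).ncard ≤ 3 := by
  obtain ⟨n1, n2, n3⟩ := no_two H K K' hκ hF h1 h2 hx
  set V := pt (pt z p) (p + s * τ) with hV
  obtain ⟨m, hm⟩ : ∃ m : Fin 6, T V ⊆ {c, d, m} := by
    by_cases hi : i ∈ T V
    · refine ⟨i, fun j hj => ?_⟩
      rcases all6 nd j with rfl | rfl | rfl | rfl | rfl | rfl
      · simp
      · exact absurd ⟨hi, hj⟩ n1
      · simp
      · simp
      · exact absurd ⟨hi, hj⟩ n2
      · exact absurd hj hy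
    · by_cases ho : o ∈ T V
      · refine ⟨o, fun j hj => ?_⟩
        rcases all6 nd j with rfl | rfl | rfl | rfl | rfl | rfl
        · exact absurd hj hi
        · simp
        · simp
        · simp
        · exact absurd ⟨ho, hj⟩ n3
        · exact absurd hj hy
      · refine ⟨x, fun j hj => ?_⟩
        rcases all6 nd j with rfl | rfl | rfl | rfl | rfl | rfl
        · exact absurd hj hi
        · exact absurd hj ho
        · simp
        · simp
        · simp
        · exact absurd hj hy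
  refine (Set.ncard_le_ncard hm (Set.toFinite _)).trans ((Set.ncard_insert_le _ _).trans ?_)
  have := Set.ncard_insert_le d ({m} : Set (Fin 6))
  rw [Set.ncard_singleton] at this
  omega

end sides

end Vale.Agent.P032.H657
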