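import Vale.Agent.P032.H877.Cur

/-!
# P032: walls inside a connected germ (wild frame `Irr U T`)

`Irr.no_layer`: a point `v` near `x` with at most three colours does not contain the palette of a point of `S(x)`.
Consequences for preconnected sets `K` near `x` with few colours:

* `sector_two` : `T v ⊆ {i, j}` on `K` and `T y ⊆ {i, j}` for one `y` in `S(x)`: `K` is solid;
* `sector_three` : `T v ⊆ {i, j, l}` on `K`, `T y1 ⊆ {i, j}`, `T y2 ⊆ {i, l}` for some `y1, y2` in `S(x)`: `K` is solid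
  `i` or has only the colours `j, l`;
* `sector_solid` : with a third point `T y3 ⊆ {j, l}`: `K` is solid;
* `sector_part` : general form for a partition of the colours.
-/

open Set Filter Topology Metric

noncomputable section

namespace Vale.Agent.P032.H657

open Vale.Agent.P032.Six Vale.Agent.P032.S5.H767 Vale.Agent.P032.H892

variable {k : ℕ} {U : Fin k → Set ℂ} {T : ℂ → Set (Fin k)}

/-- a preconnected set on which no palette meets both `A` and `B` -/
theorem one_side (h : Irr U T) {K : Set ℂ} (hK : IsPreconnected K) {A B : Set (Fin k)}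
    (hT : ∀ v ∈ K, T v ⊆ A ∪ B) (hno : ∀ v ∈ K, ∀ i ∈ T v, ∀ j ∈ T v, i ∈ A → j ∈ B → False) :
    (∀ v ∈ K, T v ⊆ A) ∨ (∀ v ∈ K, T v ⊆ B) := by
  have hcl : ∀ A : Set (Fin k), IsClosed {v | ∃ i ∈ A, i ∈ T v} := by
    intro A
    have e : {v | ∃ i ∈ A, i ∈ T v} = ⋃ i ∈ A, {v | i ∈ T v} := by ext v; simp
    rw [e]
    exact (Set.toFinite A).isClosed_biUnion fun i _ => h.closed i
  by_contra hcon
  push Not at hcon
  obtain ⟨⟨p, hp, hpA⟩, q, hq, hqB⟩ := hcon
  obtain ⟨i, hi, hiA⟩ := Set.not_subset.1 hpA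
  obtain ⟨j, hj, hjB⟩ := Set.not_subset.1 hqB
  have hiB : i ∈ B := (hT p hp hi).resolve_left hiA
  have hjA : j ∈ A := (hT q hq hj).resolve_right hjB
  obtain ⟨v, hv, ⟨a, haA, ha⟩, b, hbB, hb⟩ := isPreconnected_closed_iff.1 hK _ _ (hcl A) (hcl B)
    (fun v hv => by
      obtain ⟨m, hm⟩ := h.ne v
      exact (hT v hv hm).imp (fun h1 => ⟨m, h1, hm⟩) fun h1 => ⟨m, h1, hm⟩)
    ⟨q, hq, j, hjA, hj⟩ ⟨p, hp, i, hiB, hi⟩
  exact hno v hv a ha b hb haA hbB

/-- **General form.** `Y` a finite set of points of `S(x)`. Near `x`: a preconnected set `K` all of whose palettes have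
at most three colours, colours in `A ∪ B`, and for `i ∈ A`, `j ∈ B` some `y ∈ Y` has `T y ⊆ {i, j}`. Then `K` has only
colours of `A` or only colours of `B`. -/
theorem sector_part (h : Irr U T) {x : ℂ} {Y : Set ℂ} (hY : Y.Finite) (hYx : ∀ y ∈ Y, dist y x = 1) :
    ∃ r > 0, ∀ K ⊆ ball x r, IsPreconnected K → ∀ A B : Set (Fin k), (∀ v ∈ K, T v ⊆ A ∪ B) →
      (∀ v ∈ K, (T v).ncard ≤ 3) → (∀ i ∈ A, ∀ j ∈ B, ∃ y ∈ Y, T y ⊆ {i, j}) →
        (∀ v ∈ K, T v ⊆ A) ∨ (∀ v ∈ K, T v ⊆ B) := by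
  have h1 : ∀ᶠ v in 𝓝 x, ∀ y ∈ Y, T y ⊆ T v → 4 ≤ (T v).ncard :=
    (Filter.eventually_all_finite hY).2 fun y hy => h.no_layer (hYx y hy)
  obtain ⟨r, hr, hb⟩ := Metric.eventually_nhds_iff_ball.1 h1
  refine ⟨r, hr, fun K hKr hK A B hT h3 hAB => one_side h hK hT fun v hv i hi j hj hiA hjB => ?_⟩
  obtain ⟨y, hy, hyT⟩ := hAB i hiA j hjB
  have h4 : ({i, j} : Set (Fin k)) ⊆ T v := by
    rintro m (rfl | rfl)
    · exact hi
    · exact hj
  have h5 := hb v (hKr hv) y hy (hyT.trans h4)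
  have h6 := h3 v hv
  omega

/-- two colours -/
theorem sector_two (h : Irr U T) {x y : ℂ} (hy : dist y x = 1) {i j : Fin k} (hij : i ≠ j) (hyT : T y ⊆ {i, j}) :
    ∃ r > 0, ∀ K ⊆ ball x r, IsPreconnected K → (∀ v ∈ K, T v ⊆ {i, j}) →
      (∀ v ∈ K, T v = {i}) ∨ (∀ v ∈ K, T v = {j}) := by
  obtain ⟨r, hr, hb⟩ := sector_part h (x := x) (Y := {y}) (Set.finite_singleton y) (by rintro _ rfl; exact hy)
  refine ⟨r, hr, fun K hKr hK hT => ?_⟩
  have h1 := hb K hKr hK {i} {j} (fun v hv => (hT v hv).trans (by rintro m (rfl | rfl) <;> simp))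
    (fun v hv => ((Set.ncard_le_ncard (hT v hv) (Set.toFinite _)).trans (Set.ncard_insert_le i {j})).trans
      (by rw [Set.ncard_singleton]; norm_num))
    (by rintro _ rfl _ rfl; exact ⟨y, rfl, hyT⟩)
  refine h1.imp (fun e v hv => ?_) fun e v hv => ?_
  · obtain ⟨m, hm⟩ := h.ne v
    have : m = i := by simpa using e v hv hm
    exact Subset.antisymm (e v hv) (singleton_subset_iff.2 (this ▸ hm))
  · obtain ⟨m, hm⟩ := h.ne v
    have : m = j := by simpa using e v hv hm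
    exact Subset.antisymm (e v hv) (singleton_subset_iff.2 (this ▸ hm))

theorem three_le (i j l : Fin k) : ({i, j, l} : Set (Fin k)).ncard ≤ 3 := by
  have h1 := Set.ncard_insert_le i ({j, l} : Set (Fin k))
  have h2 := Set.ncard_insert_le j ({l} : Set (Fin k))
  rw [Set.ncard_singleton] at h2
  omega

/-- three colours, two palettes on the circle: the common colour is alone or absent -/
theorem sector_three (h : Irr U T) {x y1 y2 : ℂ} (hy1 : dist y1 x = 1) (hy2 : dist y2 x = 1) {i j l : Fin k}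
    (h1T : T y1 ⊆ {i, j}) (h2T : T y2 ⊆ {i, l}) :
    ∃ r > 0, ∀ K ⊆ ball x r, IsPreconnected K → (∀ v ∈ K, T v ⊆ {i, j, l}) →
      (∀ v ∈ K, T v = {i}) ∨ (∀ v ∈ K, T v ⊆ {j, l}) := by
  obtain ⟨r, hr, hb⟩ := sector_part h (x := x) (Y := {y1, y2}) (Set.toFinite _) (by
    rintro _ (rfl | rfl)
    · exact hy1
    · exact hy2)
  refine ⟨r, hr, fun K hKr hK hT => ?_⟩
  have h1 := hb K hKr hK {i} {j, l} (fun v hv => (hT v hv).trans (by rintro m (rfl | rfl | rfl) <;> simp))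
    (fun v hv => (Set.ncard_le_ncard (hT v hv) (Set.toFinite _)).trans (three_le i j l))
    (by
      rintro _ rfl m (rfl | rfl)
      · exact ⟨y1, Or.inl rfl, h1T⟩
      · exact ⟨y2, Or.inr rfl, h2T⟩)
  refine h1.imp (fun e v hv => ?_) id
  obtain ⟨m, hm⟩ := h.ne v
  have : m = i := by simpa using e v hv hm
  exact Subset.antisymm (e v hv) (singleton_subset_iff.2 (this ▸ hm))

/-- three colours, all three pairs on the circle: solid -/
theorem sector_solid (h : Irr U T) {x y1 y2 y3 : ℂ} (hy1 : dist y1 x = 1) (hy2 : dist y2 x = 1)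
    (hy3 : dist y3 x = 1) {i j l : Fin k} (hjl : j ≠ l) (h1T : T y1 ⊆ {i, j}) (h2T : T y2 ⊆ {i, l})
    (h3T : T y3 ⊆ {j, l}) :
    ∃ r > 0, ∀ K ⊆ ball x r, IsPreconnected K → (∀ v ∈ K, T v ⊆ {i, j, l}) →
      (∀ v ∈ K, T v = {i}) ∨ (∀ v ∈ K, T v = {j}) ∨ (∀ v ∈ K, T v = {l}) := by
  obtain ⟨r, hr, hb⟩ := sector_three h hy1 hy2 h1T h2T
  obtain ⟨s, hs, hc⟩ := sector_two h hy3 hjl h3T
  refine ⟨min r s, lt_min hr hs, fun K hKr hK hT => ?_⟩
  rcases hb K (hKr.trans (ball_subset_ball (min_le_left _ _))) hK hT with h1 | h1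
  · exact Or.inl h1
  · exact Or.inr (hc K (hKr.trans (ball_subset_ball (min_le_right _ _))) hK h1)

end Vale.Agent.P032.H657
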