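import Vale.Agent.P032.H657.Sweep

/-!
# P032: generic hull (949, frame `Irr U T`, any number of colours)

`x b = c + B * cis b` moves on the circle of radius `‖B‖` about `c`, `b` generic (the palettes of `x b` and of
the two radial points `c + (1 + 1/‖B‖) * B * cis b`, `c + (1 - 1/‖B‖) * B * cis b` are locally constant).  If
`x b` is in no `U i`, every colour `i` of its palette has its partner on the radial line; outer partner: `U i`
misses the points near `x b` outside the circle; inner partner, `1 < ‖B‖`: `U i` misses the points inside.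
-/

open Set Filter Topology Metric

noncomputable section

namespace Vale.Agent.P032.H657

open Vale.Agent.P032.Six

variable {k : ℕ} {U : Fin k → Set ℂ} {T : ℂ → Set (Fin k)}

/-- a unit vector parallel to `v` -/
theorem par_unit {e v : ℂ} (he : ‖e‖ = 1) (hv : v ≠ 0) (him : (e * (starRingEnd ℂ) v).im = 0) :
    e = ((1 / ‖v‖ : ℝ) : ℂ) * v ∨ e = -(((1 / ‖v‖ : ℝ) : ℂ) * v) := by
  have hn : 0 < ‖v‖ := norm_pos_iff.2 hv
  set r : ℝ := (e * (starRingEnd ℂ) v).re with hr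
  have h1 : e * (starRingEnd ℂ) v = (r : ℂ) := by
    apply Complex.ext
    · simp [hr]
    · simp [him]
  have h2 : |r| = ‖v‖ := by
    have := congrArg norm h1
    rw [norm_mul, he, one_mul, RCLike.norm_conj, Complex.norm_real, Real.norm_eq_abs] at this
    exact this.symm
  have h3 : e * ((‖v‖ : ℂ) ^ 2) = (r : ℂ) * v := by
    have h4 : (starRingEnd ℂ) v * v = ((‖v‖ : ℂ)) ^ 2 := by
      rw [mul_comm, Complex.mul_conj, Complex.normSq_eq_norm_sq]
      push_cast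
      rfl
    calc e * ((‖v‖ : ℂ) ^ 2) = e * ((starRingEnd ℂ) v * v) := by rw [h4]
      _ = (e * (starRingEnd ℂ) v) * v := by ring
      _ = (r : ℂ) * v := by rw [h1]
  have hnC : (‖v‖ : ℂ) ≠ 0 := by exact_mod_cast hn.ne'
  rcases le_total 0 r with h0 | h0
  · left
    rw [abs_of_nonneg h0] at h2
    rw [h2] at h3
    push_cast
    field_simp
    have : e * (‖v‖ : ℂ) * (‖v‖ : ℂ) = v * (‖v‖ : ℂ) := by linear_combination h3
    exact mul_right_cancel₀ hnC this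
  · right
    rw [abs_of_nonpos h0] at h2
    have h5 : r = -‖v‖ := by linarith
    rw [h5] at h3
    push_cast at h3 ⊢
    field_simp
    have : e * (‖v‖ : ℂ) * (‖v‖ : ℂ) = -v * (‖v‖ : ℂ) := by linear_combination h3
    exact mul_right_cancel₀ hnC this

/-- outer radial point with the colour `i`: `U i` misses the outside of the circle -/
theorem outer (h : Mx U) {c B : ℂ} {b : ℝ} (hB : B ≠ 0) {i : Fin k}
    (hi : ∀ᶠ b' in 𝓝 b, i ∈ Pal U (c + ((1 + 1 / ‖B‖ : ℝ) : ℂ) * B * cis b')) :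
    ∀ᶠ w in 𝓝 (c + B * cis b), ‖B‖ < dist w c → i ∉ Pal U w := by
  have hn : 0 < ‖B‖ := norm_pos_iff.2 hB
  have hs : (0 : ℝ) < 1 + 1 / ‖B‖ := by positivity
  have hβ : ((1 + 1 / ‖B‖ : ℝ) : ℂ) * B ≠ 0 := mul_ne_zero (by exact_mod_cast hs.ne') hB
  have hnβ : ‖((1 + 1 / ‖B‖ : ℝ) : ℂ) * B‖ = ‖B‖ + 1 := by
    rw [norm_mul, Complex.norm_real, Real.norm_eq_abs, abs_of_pos hs]
    field_simp
  have hμ : (0 : ℝ) < ‖B‖ / (‖B‖ + 1) := by positivity
  have h1 := env h (c := c) (b := b) hμ hβ (by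
    rw [hnβ]
    have : ‖B‖ / (‖B‖ + 1) - 1 = -(1 / (‖B‖ + 1)) := by field_simp; ring
    rw [this, abs_neg, abs_of_pos (by positivity)]
    field_simp) hi
  have e1 : c + ((‖B‖ / (‖B‖ + 1) : ℝ) : ℂ) * (((1 + 1 / ‖B‖ : ℝ) : ℂ) * B * cis b) = c + B * cis b := by
    have : ((‖B‖ / (‖B‖ + 1) : ℝ) : ℂ) * ((1 + 1 / ‖B‖ : ℝ) : ℂ) = 1 := by
      rw [← Complex.ofReal_mul]
      have : ‖B‖ / (‖B‖ + 1) * (1 + 1 / ‖B‖) = 1 := by field_simp
      rw [this]; simp
    linear_combination (B * cis b) * this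
  rw [e1, hnβ] at h1
  have h2 : ∀ᶠ w in 𝓝 (c + B * cis b), dist w c < ‖B‖ + 1 := by
    have hd : dist (c + B * cis b) c = ‖B‖ := by
      rw [dist_eq_norm, add_sub_cancel_left, norm_mul, norm_cis, mul_one]
    refine (continuous_id.dist continuous_const).continuousAt.eventually_lt_const ?_
    simp only [id]
    rw [hd]; linarith
  filter_upwards [h1, h2] with w hw1 hw2 hlt
  refine hw1 ?_
  rw [abs_lt]
  constructor <;> linarith

/-- inner radial point with the colour `i`: `U i` misses the inside of the circle -/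
theorem inner (h : Mx U) {c B : ℂ} {b : ℝ} (hB : 1 < ‖B‖) {i : Fin k}
    (hi : ∀ᶠ b' in 𝓝 b, i ∈ Pal U (c + ((1 - 1 / ‖B‖ : ℝ) : ℂ) * B * cis b')) :
    ∀ᶠ w in 𝓝 (c + B * cis b), dist w c < ‖B‖ → i ∉ Pal U w := by
  have hn : 0 < ‖B‖ := by linarith
  have hB0 : B ≠ 0 := norm_pos_iff.1 hn
  have hs : (0 : ℝ) < 1 - 1 / ‖B‖ := by
    rw [sub_pos, div_lt_one hn]; exact hB
  have hβ : ((1 - 1 / ‖B‖ : ℝ) : ℂ) * B ≠ 0 := mul_ne_zero (by exact_mod_cast hs.ne') hB0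
  have hnβ : ‖((1 - 1 / ‖B‖ : ℝ) : ℂ) * B‖ = ‖B‖ - 1 := by
    rw [norm_mul, Complex.norm_real, Real.norm_eq_abs, abs_of_pos hs]
    field_simp
  have hm1 : (0 : ℝ) < ‖B‖ - 1 := by linarith
  have hμ : (0 : ℝ) < ‖B‖ / (‖B‖ - 1) := by positivity
  have h1 := env h (c := c) (b := b) hμ hβ (by
    rw [hnβ]
    have : ‖B‖ / (‖B‖ - 1) - 1 = 1 / (‖B‖ - 1) := by field_simp; ring
    rw [this, abs_of_pos (by positivity)]
    field_simp) hi
  have e1 : c + ((‖B‖ / (‖B‖ - 1) : ℝ) : ℂ) * (((1 - 1 / ‖B‖ : ℝ) : ℂ) * B * cis b) = c + B * cis b := by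
    have : ((‖B‖ / (‖B‖ - 1) : ℝ) : ℂ) * ((1 - 1 / ‖B‖ : ℝ) : ℂ) = 1 := by
      rw [← Complex.ofReal_mul]
      have : ‖B‖ / (‖B‖ - 1) * (1 - 1 / ‖B‖) = 1 := by field_simp
      rw [this]; simp
    linear_combination (B * cis b) * this
  rw [e1, hnβ] at h1
  have h2 : ∀ᶠ w in 𝓝 (c + B * cis b), ‖B‖ - 2 < dist w c := by
    have hd : dist (c + B * cis b) c = ‖B‖ := by
      rw [dist_eq_norm, add_sub_cancel_left, norm_mul, norm_cis, mul_one]
    refine (continuous_id.dist continuous_const).continuousAt.eventually_const_lt ?_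
    simp only [id]
    rw [hd]; linarith
  filter_upwards [h1, h2] with w hw1 hw2 hlt
  refine hw1 ?_
  rw [abs_lt]
  constructor <;> linarith

/-- the partners of a moving point of `XX` with a persistent colour are radial -/
theorem radial (h : Irr U T) {c B : ℂ} {b : ℝ} (hB : B ≠ 0) (hx : c + B * cis b ∈ XX U) {i : Fin k}
    (hi : ∀ᶠ b' in 𝓝 b, i ∈ Pal U (c + B * cis b')) :
    i ∈ Pal U (c + ((1 + 1 / ‖B‖ : ℝ) : ℂ) * B * cis b) ∨
      i ∈ Pal U (c + ((1 - 1 / ‖B‖ : ℝ) : ℂ) * B * cis b) := by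
  obtain ⟨y, hy1, hy2⟩ := h.partner_XX hx i
  have hn : 0 < ‖B‖ := norm_pos_iff.2 hB
  have hv : B * cis b ≠ 0 := by
    rw [← norm_pos_iff, norm_mul, norm_cis, mul_one]; exact hn
  have hnv : ‖B * cis b‖ = ‖B‖ := by rw [norm_mul, norm_cis, mul_one]
  have him : ((y - (c + B * cis b)) * (starRingEnd ℂ) (B * cis b)).im = 0 := by
    by_contra hne
    exact sweep h.mx hi hy1 hne hy2
  have he : ‖y - (c + B * cis b)‖ = 1 := by rw [← dist_eq_norm, dist_comm]; exact hy1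
  rcases par_unit he hv him with h1 | h1
  · left
    have : y = c + ((1 + 1 / ‖B‖ : ℝ) : ℂ) * B * cis b := by
      rw [hnv] at h1
      push_cast at h1 ⊢
      linear_combination h1
    rw [← this]; exact hy2
  · right
    have : y = c + ((1 - 1 / ‖B‖ : ℝ) : ℂ) * B * cis b := by
      rw [hnv] at h1
      push_cast at h1 ⊢
      linear_combination h1
    rw [← this]; exact hy2

/-- **Generic hull** -/
theorem hull (h : Irr U T) {c B : ℂ} {b : ℝ} (hB : B ≠ 0) (hx : c + B * cis b ∈ XX U) {i : Fin k}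
    (hi : i ∈ Pal U (c + B * cis b))
    (hc : ∀ᶠ b' in 𝓝 b, Pal U (c + B * cis b') = Pal U (c + B * cis b))
    (ho : ∀ᶠ b' in 𝓝 b, Pal U (c + ((1 + 1 / ‖B‖ : ℝ) : ℂ) * B * cis b') =
      Pal U (c + ((1 + 1 / ‖B‖ : ℝ) : ℂ) * B * cis b))
    (hn : ∀ᶠ b' in 𝓝 b, Pal U (c + ((1 - 1 / ‖B‖ : ℝ) : ℂ) * B * cis b') =
      Pal U (c + ((1 - 1 / ‖B‖ : ℝ) : ℂ) * B * cis b)) :
    (i ∈ Pal U (c + ((1 + 1 / ‖B‖ : ℝ) : ℂ) * B * cis b) ∧
      ∀ᶠ w in 𝓝 (c + B * cis b), ‖B‖ < dist w c → i ∉ Pal U w) ∨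
    (i ∈ Pal U (c + ((1 - 1 / ‖B‖ : ℝ) : ℂ) * B * cis b) ∧
      (1 < ‖B‖ → ∀ᶠ w in 𝓝 (c + B * cis b), dist w c < ‖B‖ → i ∉ Pal U w)) := by
  rcases radial h hB hx (hc.mono fun b' hb' => by rw [hb']; exact hi) with h1 | h1
  · exact Or.inl ⟨h1, outer h.mx hB (ho.mono fun b' hb' => by rw [hb']; exact h1)⟩
  · exact Or.inr ⟨h1, fun h2 => inner h.mx h2 (hn.mono fun b' hb' => by rw [hb']; exact h1)⟩

/-- (H2): a moving point of the circle `S(c)` in `XX`; a colour of its palette which is not in `Pal c` is in the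
palette of the antipode `c + 2 B cis b` and absent outside `S(c)` -/
theorem hull_one (h : Irr U T) {c B : ℂ} {b : ℝ} (hB : ‖B‖ = 1) (hx : c + B * cis b ∈ XX U) {i : Fin k}
    (hi : i ∈ Pal U (c + B * cis b)) (hic : i ∉ Pal U c)
    (hc : ∀ᶠ b' in 𝓝 b, Pal U (c + B * cis b') = Pal U (c + B * cis b))
    (ho : ∀ᶠ b' in 𝓝 b, Pal U (c + 2 * B * cis b') = Pal U (c + 2 * B * cis b)) :
    i ∈ Pal U (c + 2 * B * cis b) ∧ ∀ᶠ w in 𝓝 (c + B * cis b), 1 < dist w c → i ∉ Pal U w := by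
  have hB0 : B ≠ 0 := by rw [← norm_pos_iff, hB]; exact one_pos
  have e2 : ((1 + 1 / ‖B‖ : ℝ) : ℂ) = 2 := by rw [hB]; norm_num
  have e0 : ((1 - 1 / ‖B‖ : ℝ) : ℂ) = 0 := by rw [hB]; norm_num
  rcases radial h hB0 hx (hc.mono fun b' hb' => by rw [hb']; exact hi) with h1 | h1
  · rw [e2] at h1
    refine ⟨h1, ?_⟩
    have h3 := outer h.mx (c := c) (b := b) hB0 (i := i) (by
      rw [e2]
      exact ho.mono fun b' hb' => by rw [hb']; exact h1)
    rw [hB] at h3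
    exact h3
  · rw [e0, zero_mul, zero_mul, add_zero] at h1
    exact absurd h1 hic

end Vale.Agent.P032.H657
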