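import Vale.Agent.P032.H587.Pair
import Vale.Agent.P032.H587.Gen

/-!
# P032: generic points and their lists (any number of centres)

* `Gc T z` : the points of `S(z)` at which `T` is locally constant along `S(z)` (relatively open and
  dense).
* `Ft T z` : the points `q` all of whose feet on `S(z)` (common points of `S(z)`, `S(q)`) are in `Gc T z`;
  this set is open and dense (`isOpen_Ft`, `Irr.dense_Ft`).
* `Irr.list` : for `q ∈ Ft T z`, `q ≠ z`, `dist q z < 2`, and a foot `V`: `T V` and `Pal U q` are disjoint.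
* `Irr.cfg` : finitely many points `q j x` depending continuously and openly on a parameter `x`, finitely
  many centres `z c`: on an open dense set of parameters every `q j x` is pure, its colour is in none of
  the palettes at its feet on the `S(z c)`, and points at distance one have different colours.
* `Irr.cluster` : the case of a rigid cluster `p + w j * cis t` in general position.
-/

open Set Filter Topology Metric

noncomputable section

namespace Vale.Agent.P032.Six

variable {k : ℕ} {U : Fin k → Set ℂ} {T : ℂ → Set (Fin k)}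

/-- the points of the circle about `z` at which `T` is locally constant along the circle -/
def Gc (T : ℂ → Set (Fin k)) (z : ℂ) : Set ℂ :=
  {V | dist V z = 1 ∧ ∀ᶠ q in 𝓝[sphere z 1] V, T q = T V}

/-- all feet on `S(z)` are good -/
def Ft (T : ℂ → Set (Fin k)) (z : ℂ) : Set ℂ :=
  {q | ∀ V, dist V z = 1 → dist V q = 1 → V ∈ Gc T z}

theorem isClosed_bad (T : ℂ → Set (Fin k)) (z : ℂ) : IsClosed (sphere z (1 : ℝ) \ Gc T z) := by
  rw [← isOpen_compl_iff, isOpen_iff_mem_nhds]
  intro V hV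
  by_cases hs : V ∈ sphere z (1 : ℝ)
  · have hG : V ∈ Gc T z := by
      by_contra hcon
      exact hV ⟨hs, hcon⟩
    have h1 := eventually_eventually_nhdsWithin.2 hG.2
    have h2 : ∀ᶠ q in 𝓝[sphere z 1] V, q ∈ Gc T z := by
      filter_upwards [h1, hG.2, self_mem_nhdsWithin] with q h3 h4 h5
      refine ⟨h5, ?_⟩
      filter_upwards [h3] with r hr
      rw [hr, h4]
    rw [eventually_nhdsWithin_iff] at h2
    filter_upwards [h2] with q hq hcon
    exact hcon.2 (hq hcon.1)
  · filter_upwards [isClosed_sphere.isOpen_compl.mem_nhds hs] with q hq hcon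
    exact hq hcon.1

theorem isOpen_Ft (T : ℂ → Set (Fin k)) (z : ℂ) : IsOpen (Ft T z) := by
  have hc : IsCompact (sphere z (1 : ℝ) \ Gc T z) :=
    (isCompact_sphere z 1).of_isClosed_subset (isClosed_bad T z) sdiff_subset
  have h1 : IsCompact ((fun p : ℂ × ℂ => p.1 + p.2) ''
      ((sphere z (1 : ℝ) \ Gc T z) ×ˢ sphere (0 : ℂ) 1)) :=
    (hc.prod (isCompact_sphere 0 1)).image (by fun_prop)
  have h2 : Ft T z = ((fun p : ℂ × ℂ => p.1 + p.2) ''
      ((sphere z (1 : ℝ) \ Gc T z) ×ˢ sphere (0 : ℂ) 1))ᶜ := by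
    ext q
    constructor
    · rintro hq ⟨⟨V, u⟩, ⟨⟨hV, hVG⟩, hu⟩, rfl⟩
      refine hVG (hq V hV ?_)
      have hu' : dist u 0 = 1 := hu
      rw [dist_eq_norm, sub_zero] at hu'
      rw [dist_eq_norm, show V - (V + u) = -u by ring, norm_neg, hu']
    · intro hq V hV hVq
      by_contra hcon
      refine hq ⟨(V, q - V), ⟨⟨hV, hcon⟩, ?_⟩, by simp⟩
      show dist (q - V) 0 = 1
      rw [dist_eq_norm, sub_zero, ← dist_eq_norm, dist_comm]
      exact hVq
  rw [h2]
  exact h1.isClosed.isOpen_compl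

/-- the good points are dense on the circle -/
theorem Irr.exists_good (h : Irr U T) {z V : ℂ} (hV : dist V z = 1) {O : Set ℂ} (hO : IsOpen O)
    (hVO : V ∈ O) : ∃ W ∈ O, W ∈ Gc T z := by
  have hne : ((fun q => (T q).ncard) '' (O ∩ sphere z 1)).Nonempty := ⟨_, V, ⟨hVO, hV⟩, rfl⟩
  obtain ⟨_, ⟨W, ⟨hW, hWs⟩, rfl⟩, hmin⟩ :=
    WellFounded.has_min (r := ((· < ·) : ℕ → ℕ → Prop)) wellFounded_lt _ hne
  refine ⟨W, hW, hWs, ?_⟩
  filter_upwards [mem_nhdsWithin_of_mem_nhds (hO.mem_nhds hW), self_mem_nhdsWithin,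
    mem_nhdsWithin_of_mem_nhds (h.nhd W)] with q h1 h2 h3
  exact Set.eq_of_subset_of_ncard_le h3 (not_lt.1 (hmin _ ⟨q, ⟨h1, h2⟩, rfl⟩)) (Set.toFinite _)

/-- the two feet -/
def foot (z q : ℂ) (σ : ℝ) : ℂ :=
  (z + q) / 2 + (σ * Real.sqrt (1 / ‖q - z‖ ^ 2 - 1 / 4) : ℝ) * (Complex.I * (q - z))

theorem foot_add (z q : ℂ) : foot z q 1 + foot z q (-1) = z + q := by
  unfold foot
  push_cast
  ring

theorem eq_foot {z q V : ℂ} (hqz : q ≠ z) (h1 : dist V z = 1) (h2 : dist V q = 1) :
    V = foot z q 1 ∨ V = foot z q (-1) := by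
  set d : ℂ := q - z with hd
  have hd0 : d ≠ 0 := sub_ne_zero.2 hqz
  have hn : (0 : ℝ) < ‖d‖ ^ 2 := by positivity
  -- coordinates of `V - (z + q) / 2` in the basis `d`, `I d`
  set r : ℂ := (V - (z + q) / 2) / (Complex.I * d) with hr
  have hId : Complex.I * d ≠ 0 := mul_ne_zero Complex.I_ne_zero hd0
  have hV : V = (z + q) / 2 + r * (Complex.I * d) := by
    rw [hr, div_mul_cancel₀ _ hId]; ring
  have e1 : V - z = (1 / 2 + r * Complex.I) * d := by
    rw [hV, hd]; ring
  have e2 : V - q = (-(1 / 2) + r * Complex.I) * d := by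
    rw [hV, hd]; ring
  have n1 : ‖(1 / 2 + r * Complex.I : ℂ)‖ ^ 2 * ‖d‖ ^ 2 = 1 := by
    rw [← mul_pow, ← norm_mul, ← e1, ← dist_eq_norm, h1, one_pow]
  have n2 : ‖(-(1 / 2) + r * Complex.I : ℂ)‖ ^ 2 * ‖d‖ ^ 2 = 1 := by
    rw [← mul_pow, ← norm_mul, ← e2, ← dist_eq_norm, h2, one_pow]
  have n3 : ‖(1 / 2 + r * Complex.I : ℂ)‖ ^ 2 = ‖(-(1 / 2) + r * Complex.I : ℂ)‖ ^ 2 :=
    mul_right_cancel₀ hn.ne' (n1.trans n2.symm)
  rw [Complex.sq_norm, Complex.sq_norm, Complex.normSq_apply, Complex.normSq_apply] at n3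
  simp at n3
  have hi : r.im = 0 := by nlinarith
  rw [Complex.sq_norm, Complex.normSq_apply] at n1
  simp [hi] at n1
  have hs : r.re ^ 2 = 1 / ‖d‖ ^ 2 - 1 / 4 := by
    field_simp
    nlinarith
  have hr' : r = (r.re : ℂ) := Complex.ext rfl (by simp [hi])
  have hsq : Real.sqrt (1 / ‖d‖ ^ 2 - 1 / 4) = |r.re| := by
    rw [← hs, Real.sqrt_sq_eq_abs]
  rcases le_total 0 r.re with h0 | h0
  · left
    unfold foot
    rw [← hd, hsq, abs_of_nonneg h0, one_mul, ← hr']
    exact hV
  · right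
    unfold foot
    rw [← hd, hsq, abs_of_nonpos h0, neg_one_mul, neg_neg, ← hr']
    exact hV

theorem dist_foot_z {z q : ℂ} (hqz : q ≠ z) (h2 : dist q z ≤ 2) {σ : ℝ} (hσ : σ * σ = 1) :
    dist (foot z q σ) z = 1 := by
  have hn : 0 < ‖q - z‖ := norm_pos_iff.2 (sub_ne_zero.2 hqz)
  have hpos : 0 ≤ 1 / ‖q - z‖ ^ 2 - 1 / 4 := by
    rw [dist_eq_norm] at h2
    have h3 : ‖q - z‖ ^ 2 ≤ 4 := by nlinarith
    have h4 : 1 / 4 ≤ 1 / ‖q - z‖ ^ 2 := one_div_le_one_div_of_le (by positivity) h3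
    linarith
  have e : foot z q σ - z =
      (1 / 2 + ((σ * Real.sqrt (1 / ‖q - z‖ ^ 2 - 1 / 4) : ℝ) : ℂ) * Complex.I) * (q - z) := by
    unfold foot
    ring
  have hsq := Real.mul_self_sqrt hpos
  set s := Real.sqrt (1 / ‖q - z‖ ^ 2 - 1 / 4)
  have h5 : ‖foot z q σ - z‖ ^ 2 = 1 := by
    rw [e, norm_mul, mul_pow, Complex.sq_norm, Complex.normSq_apply]
    simp
    have : (2⁻¹ * 2⁻¹ + σ * s * (σ * s)) = 1 / ‖q - z‖ ^ 2 := by
      have : σ * s * (σ * s) = s * s := by linear_combination (s * s) * hσ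
      rw [this, hsq]; ring
    rw [this]
    field_simp
  rw [dist_eq_norm]
  have h6 : (0 : ℝ) ≤ ‖foot z q σ - z‖ := norm_nonneg _
  nlinarith

theorem foot_symm (z q : ℂ) (σ : ℝ) : foot q z σ = foot z q (-σ) := by
  unfold foot
  rw [norm_sub_rev z q]
  push_cast
  ring

theorem dist_foot_q {z q : ℂ} (hqz : q ≠ z) (h2 : dist q z ≤ 2) {σ : ℝ} (hσ : σ * σ = 1) :
    dist (foot z q σ) q = 1 := by
  have : foot z q σ = foot q z (-σ) := by rw [foot_symm z q (-σ), neg_neg]
  rw [this]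
  exact dist_foot_z hqz.symm (by rwa [dist_comm]) (by linarith [neg_mul_neg σ σ])

theorem foot_ne {z q : ℂ} (hqz : q ≠ z) (h2 : dist q z < 2) : foot z q 1 ≠ foot z q (-1) := by
  intro h3
  have h4 : foot z q 1 = (z + q) / 2 := by
    have := foot_add z q
    rw [← h3] at this
    linear_combination this / 2
  have h5 := dist_foot_z (σ := 1) hqz h2.le (by norm_num)
  rw [h4, dist_eq_norm, show (z + q) / 2 - z = (q - z) / 2 by ring, norm_div, ← dist_eq_norm] at h5
  norm_num at h5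
  linarith

/-- two distinct points on both circles are all of them -/
theorem feet_eq {z q V1 V2 W : ℂ} (hqz : q ≠ z) (h1 : dist V1 z = 1) (h1' : dist V1 q = 1)
    (h2 : dist V2 z = 1) (h2' : dist V2 q = 1) (hne : V1 ≠ V2) (h3 : dist W z = 1)
    (h3' : dist W q = 1) : W = V1 ∨ W = V2 := by
  rcases eq_foot hqz h1 h1' with e1 | e1 <;> rcases eq_foot hqz h2 h2' with e2 | e2 <;>
    rcases eq_foot hqz h3 h3' with e3 | e3
  · exact Or.inl (e3.trans e1.symm)
  · exact absurd (e1.trans e2.symm) hne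
  · exact Or.inl (e3.trans e1.symm)
  · exact Or.inr (e3.trans e2.symm)
  · exact Or.inr (e3.trans e2.symm)
  · exact Or.inl (e3.trans e1.symm)
  · exact absurd (e1.trans e2.symm) hne
  · exact Or.inl (e3.trans e1.symm)

/-- **The points with good feet are dense.** -/
theorem Irr.dense_Ft (h : Irr U T) (z : ℂ) : Dense (Ft T z) := by
  intro q1
  rw [_root_.mem_closure_iff]
  intro O hO hq1
  -- a point of `O` off `z` and off the circle of radius two
  obtain ⟨q0, hq0, hq0z, hq02⟩ : ∃ q0 ∈ O, q0 ≠ z ∧ dist q0 z ≠ 2 := by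
    have hd : Dense ({z}ᶜ ∩ (sphere z (2 : ℝ))ᶜ : Set ℂ) := by
      refine (dense_compl_singleton z).inter_of_isOpen_left ?_ isOpen_compl_singleton
      have := interior_sphere z (by norm_num : (2 : ℝ) ≠ 0)
      exact interior_eq_empty_iff_dense_compl.1 this
    obtain ⟨q0, h1, h2⟩ := hd.inter_open_nonempty O hO ⟨q1, hq1⟩
    exact ⟨q0, h1, h2.1, h2.2⟩
  rcases lt_or_gt_of_ne hq02 with hlt | hgt
  · set V1 := foot z q0 1 with hV1
    set V2 := foot z q0 (-1) with hV2
    have hs : V1 + V2 - z = q0 := by rw [hV1, hV2, foot_add]; ring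
    have h1 : dist V1 z = 1 := dist_foot_z hq0z hlt.le (by norm_num)
    have h2 : dist V2 z = 1 := dist_foot_z hq0z hlt.le (by norm_num)
    have hne : V1 ≠ V2 := foot_ne hq0z hlt
    -- open conditions on the pair
    have hopen : ∀ᶠ p : ℂ × ℂ in 𝓝 (V1, V2), p.1 + p.2 - z ∈ O ∧ p.1 ≠ p.2 ∧ p.1 + p.2 - z ≠ z := by
      have hc : Continuous fun p : ℂ × ℂ => p.1 + p.2 - z := by fun_prop
      have hc0 : (V1, V2).1 + (V1, V2).2 - z = q0 := hs
      refine Filter.Eventually.and ?_ (Filter.Eventually.and ?_ ?_)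
      · exact (hO.preimage hc).mem_nhds (show (V1, V2).1 + (V1, V2).2 - z ∈ O by rwa [hc0])
      · exact (isOpen_ne_fun continuous_fst continuous_snd).mem_nhds hne
      · refine (hc.continuousAt (x := (V1, V2))).eventually_ne ?_
        rw [show (V1, V2).1 + (V1, V2).2 - z = q0 from hs]
        exact hq0z
    rw [nhds_prod_eq, Filter.eventually_prod_iff] at hopen
    obtain ⟨pa, ha, pb, hb, hab⟩ := hopen
    obtain ⟨A, hA, hAo, hVA⟩ := _root_.mem_nhds_iff.1 ha
    obtain ⟨B, hB, hBo, hVB⟩ := _root_.mem_nhds_iff.1 hb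
    obtain ⟨W1, hW1, hG1⟩ := h.exists_good h1 hAo hVA
    obtain ⟨W2, hW2, hG2⟩ := h.exists_good h2 hBo hVB
    obtain ⟨k1, k2, k3⟩ := hab (hA hW1) (hB hW2)
    refine ⟨W1 + W2 - z, k1, ?_⟩
    intro V hV hVq
    have g1 : dist W1 (W1 + W2 - z) = 1 := by
      rw [dist_eq_norm, show W1 - (W1 + W2 - z) = -(W2 - z) by ring, norm_neg, ← dist_eq_norm]
      exact hG2.1
    have g2 : dist W2 (W1 + W2 - z) = 1 := by
      rw [dist_eq_norm, show W2 - (W1 + W2 - z) = -(W1 - z) by ring, norm_neg, ← dist_eq_norm]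
      exact hG1.1
    rcases feet_eq k3 hG1.1 g1 hG2.1 g2 k2 hV hVq with rfl | rfl
    · exact hG1
    · exact hG2
  · refine ⟨q0, hq0, fun V hV hVq => ?_⟩
    have := dist_triangle q0 V z
    rw [dist_comm q0 V, hVq, hV] at this
    linarith

/-- **The list rule.** -/
theorem Irr.list (h : Irr U T) {z q V : ℂ} (hG : V ∈ Gc T z) (hqz : q ≠ z) (h2 : dist q z < 2)
    (hVq : dist V q = 1) : Disjoint (T V) (Pal U q) := by
  have hV := hG.1
  refine h.mx.pair_rule (z := z) (w := q) hqz.symm (by rwa [dist_comm]) hV hVq ?_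
  filter_upwards [hG.2] with r hr
  rw [← hr]
  exact h.sub r

variable {X : Type*} [TopologicalSpace X]

/-- **Generic configurations.**  `q j x` : finitely many points depending continuously and openly on
the parameter `x`; `z c` : finitely many centres.  On an open dense set of parameters: every `q j x`
is pure, at all its feet on the circles `S(z c)` the palette is constant along the circle, its colour
is not in the palette of the foot, and points at distance one have different colours. -/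
theorem Irr.cfg (h : Irr U T) {J C : Type*} [Finite J] [Finite C] {q : J → X → ℂ} {z : C → ℂ}
    (hq : ∀ j, Continuous (q j)) (hqo : ∀ j, IsOpenMap (q j)) :
    ∃ S : Set X, IsOpen S ∧ Dense S ∧ ∀ x ∈ S, ∃ co : J → Fin k,
      (∀ j, T (q j x) = {co j}) ∧
      (∀ j l, dist (q j x) (q l x) = 1 → co j ≠ co l) ∧
      (∀ j c V, dist V (z c) = 1 → dist V (q j x) = 1 →
        V ∈ Gc T (z c) ∧ co j ∉ T V) := by
  let S : J → Set X := fun j => {x | ∃ i, T (q j x) = {i}}
  let R : J × C → Set X := fun p => q p.1 ⁻¹' (Ft T (z p.2))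
  have hS : ∀ j, IsOpen (S j) ∧ Dense (S j) := fun j =>
    ⟨(h.dense_pure (hq j) (hqo j)).2, (h.dense_pure (hq j) (hqo j)).1⟩
  have hR : ∀ p, IsOpen (R p) ∧ Dense (R p) := fun p =>
    ⟨(isOpen_Ft T _).preimage (hq p.1), (h.dense_Ft (z p.2)).preimage (hqo p.1)⟩
  have iS := dense_open_inter (fun j => (hS j).1) (fun j => (hS j).2)
  have iR := dense_open_inter (fun p => (hR p).1) (fun p => (hR p).2)
  refine ⟨(⋂ j, S j) ∩ ⋂ p, R p, iS.2.inter iR.2, iS.1.inter_of_isOpen_left iR.1 iS.2, ?_⟩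
  · rintro x ⟨hx1, hx2⟩
    rw [mem_iInter] at hx1 hx2
    choose co hco using hx1
    refine ⟨co, hco, fun j l hjl => h.pure_ne hjl (hco j) (hco l), fun j c V hV hVq => ?_⟩
    refine ⟨hx2 (j, c) V hV hVq, ?_⟩
    exact fun hcon => h.pure_notMem (by rwa [dist_comm]) (hco j) (h.sub V hcon)

/-- a rigid cluster in general position -/
theorem isOpenMap_cluster (w : ℂ) : IsOpenMap fun g : ℂ × ℝ => g.1 + w * cis g.2 := by
  have e : (fun g : ℂ × ℝ => g.1 + w * cis g.2) = Prod.fst ∘
      (fun g : ℂ × ℝ => (g.1 + w * cis g.2, g.2)) := rfl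
  rw [e]
  have hc : Continuous fun g : ℂ × ℝ => w * cis g.2 :=
    continuous_const.mul (continuous_cis.comp continuous_snd)
  let H : ℂ × ℝ ≃ₜ ℂ × ℝ :=
    { toFun := fun g => (g.1 + w * cis g.2, g.2)
      invFun := fun g => (g.1 - w * cis g.2, g.2)
      left_inv := fun g => by simp
      right_inv := fun g => by simp
      continuous_toFun := by
        exact (continuous_fst.add hc).prodMk continuous_snd
      continuous_invFun := by
        exact (continuous_fst.sub hc).prodMk continuous_snd }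
  exact isOpenMap_fst.comp H.isOpenMap

theorem continuous_cluster (w : ℂ) : Continuous fun g : ℂ × ℝ => g.1 + w * cis g.2 :=
  continuous_fst.add (continuous_const.mul (continuous_cis.comp continuous_snd))

/-- **Generic rigid clusters**: in every nonempty open set of positions `(p, t)` there is one such that
all points `p + w j * cis t` are pure, with different colours at distance one, and all feet on the
circles about the centres are good. -/
theorem Irr.cluster (h : Irr U T) {J C : Type*} [Finite J] [Finite C] (w : J → ℂ) (z : C → ℂ)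
    {O : Set (ℂ × ℝ)} (hO : IsOpen O) (hne : O.Nonempty) :
    ∃ g ∈ O, ∃ co : J → Fin k, (∀ j, T (g.1 + w j * cis g.2) = {co j}) ∧
      (∀ j l, ‖w j - w l‖ = 1 → co j ≠ co l) ∧
      (∀ j c V, dist V (z c) = 1 → dist V (g.1 + w j * cis g.2) = 1 →
        V ∈ Gc T (z c) ∧ co j ∉ T V) := by
  obtain ⟨S, hS, hd, hall⟩ := h.cfg (q := fun j (g : ℂ × ℝ) => g.1 + w j * cis g.2) (z := z)
    (fun j => continuous_cluster (w j)) (fun j => isOpenMap_cluster (w j))
  obtain ⟨g, hgO, hgS⟩ := hd.inter_open_nonempty O hO hne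
  obtain ⟨co, h1, h2, h3⟩ := hall g hgS
  refine ⟨g, hgO, co, h1, fun j l hjl => h2 j l ?_, h3⟩
  rw [dist_eq_norm, show g.1 + w j * cis g.2 - (g.1 + w l * cis g.2) = (w j - w l) * cis g.2 by ring,
    norm_mul, hjl, norm_cis, one_mul]

end Vale.Agent.P032.Six
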