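import Vale.Agent.P032.H657.Lists

/-!
# P032: rotating configurations seen from a second centre

* `Irr.rot_feet` : the point `q t = z + w * cis t`, `w ≠ 0`, moves on a circle about `z`; in every
  nonempty open set of angles there is a nonempty open set on which all feet of `q t` on `S(v)` (other
  than `z`) are good.
* `Irr.cfg_rot` : the same for finitely many moving points `b j + w j * cis t` and finitely many centres
  `z c`, together with local constancy of the palettes `T`, `Pal` of the moving points.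
-/

open Set Filter Topology Metric

noncomputable section

namespace Vale.Agent.P032.Six

variable {k : ℕ} {U : Fin k → Set ℂ} {T : ℂ → Set (Fin k)}

/-- the cross product of two differences -/
def crd (A B P : ℂ) : ℝ := (B - A).re * (P - A).im - (B - A).im * (P - A).re

theorem continuous_crd : Continuous fun p : ℂ × ℂ × ℂ => crd p.1 p.2.1 p.2.2 := by
  unfold crd
  fun_prop

/-- a point of a circle on the line through two points of the circle is one of them -/
theorem crd_zero {v A B P : ℂ} (hA : dist A v = 1) (hB : dist B v = 1) (hP : dist P v = 1)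
    (hAB : A ≠ B) (h0 : crd A B P = 0) : P = A ∨ P = B := by
  have e1 : ∀ Q : ℂ, dist Q v = 1 → (Q.re - v.re) ^ 2 + (Q.im - v.im) ^ 2 = 1 := fun Q hQ =>
    by
      rw [dist_eq_norm] at hQ
      have := Complex.sq_norm (Q - v)
      rw [hQ, Complex.normSq_apply] at this
      simp only [Complex.sub_re, Complex.sub_im] at this
      nlinarith
  have a := e1 A hA
  have b := e1 B hB
  have p := e1 P hP
  unfold crd at h0
  simp only [Complex.sub_re, Complex.sub_im] at h0
  set x := B.re - A.re with hx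
  set y := B.im - A.im with hy
  have hxy : 0 < x ^ 2 + y ^ 2 := by
    by_contra hcon
    have h1 : x = 0 := by nlinarith [sq_nonneg x, sq_nonneg y]
    have h2 : y = 0 := by nlinarith [sq_nonneg x, sq_nonneg y]
    exact hAB (Complex.ext (by rw [hx] at h1; linarith) (by rw [hy] at h2; linarith))
  -- `P - A = s (B - A)`
  set s := (x * (P.re - A.re) + y * (P.im - A.im)) / (x ^ 2 + y ^ 2) with hs
  have hs' : s * (x ^ 2 + y ^ 2) = x * (P.re - A.re) + y * (P.im - A.im) := by
    rw [hs]; exact div_mul_cancel₀ _ hxy.ne'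
  have p1 : P.re = A.re + s * x := by
    have : (x ^ 2 + y ^ 2) * (P.re - A.re - s * x) = 0 := by
      linear_combination (-x) * hs' - y * h0
    rcases mul_eq_zero.1 this with h | h
    · exact absurd h hxy.ne'
    · linarith
  have p2 : P.im = A.im + s * y := by
    have : (x ^ 2 + y ^ 2) * (P.im - A.im - s * y) = 0 := by
      linear_combination (-y) * hs' + x * h0
    rcases mul_eq_zero.1 this with h | h
    · exact absurd h hxy.ne'
    · linarith
  have q1 : B.re = A.re + x := by rw [hx]; ring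
  have q2 : B.im = A.im + y := by rw [hy]; ring
  rw [p1, p2] at p
  rw [q1, q2] at b
  have hfin : s * (s - 1) * (x ^ 2 + y ^ 2) = 0 := by
    linear_combination p - s * b + (s - 1) * a
  rcases mul_eq_zero.1 hfin with h | h
  · rcases mul_eq_zero.1 h with h | h
    · left
      exact Complex.ext (by rw [p1, h]; ring) (by rw [p2, h]; ring)
    · right
      have h1 : s = 1 := by linarith
      exact Complex.ext (by rw [p1, q1, h1]; ring) (by rw [p2, q2, h1]; ring)
  · exact absurd h hxy.ne'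

/-- between two different points of the circle on a continuous path in the circle there is a good
point of the path -/
theorem Irr.exists_good_on (h : Irr U T) {v : ℂ} {F : ℝ → ℂ} {a b : ℝ} (hab : a ≤ b)
    (hF : ContinuousOn F (Icc a b)) (hFv : ∀ t ∈ Icc a b, dist (F t) v = 1) (hne : F a ≠ F b) :
    ∃ t ∈ Ioo a b, F t ∈ Gc T v := by
  set A := F a with hA
  set B := F b with hB
  have hAv : dist A v = 1 := hFv a ⟨le_rfl, hab⟩
  have hBv : dist B v = 1 := hFv b ⟨hab, le_rfl⟩
  have hn : 0 < ‖A - B‖ := norm_pos_iff.2 (sub_ne_zero.2 hne)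
  set u : ℂ := Complex.I * ((A - B) / (‖A - B‖ : ℂ)) with hu
  have hu1 : ‖u‖ = 1 := by
    rw [hu, norm_mul, Complex.norm_I, one_mul, norm_div, Complex.norm_real, norm_norm,
      div_self hn.ne']
  have hM : dist (v + u) v = 1 := by rw [dist_eq_norm, add_sub_cancel_left, hu1]
  have hM' : dist (v - u) v = 1 := by
    rw [dist_eq_norm, show v - u - v = -u by ring, norm_neg, hu1]
  have e1 : ∀ Q : ℂ, dist Q v = 1 → (Q.re - v.re) ^ 2 + (Q.im - v.im) ^ 2 = 1 := fun Q hQ =>
    by
      rw [dist_eq_norm] at hQ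
      have := Complex.sq_norm (Q - v)
      rw [hQ, Complex.normSq_apply] at this
      simp only [Complex.sub_re, Complex.sub_im] at this
      nlinarith
  have a1 := e1 A hAv
  have b1 := e1 B hBv
  -- signs at `A` and `B`
  have hure : u.re = -(A.im - B.im) / ‖A - B‖ := by
    rw [hu]
    simp [Complex.div_re, Complex.div_im, Complex.normSq_apply]
    field_simp
    ring
  have huim : u.im = (A.re - B.re) / ‖A - B‖ := by
    rw [hu]
    simp [Complex.div_re, Complex.div_im, Complex.normSq_apply]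
    field_simp
  have hN : ‖A - B‖ * ‖A - B‖ = (A.re - B.re) ^ 2 + (A.im - B.im) ^ 2 := by
    have := Complex.sq_norm (A - B)
    rw [Complex.normSq_apply] at this
    simp only [Complex.sub_re, Complex.sub_im] at this
    nlinarith
  have c1 : crd (v + u) (v - u) A = ‖A - B‖ := by
    unfold crd
    simp only [Complex.sub_re, Complex.sub_im, Complex.add_re, Complex.add_im]
    rw [hure, huim]
    field_simp
    nlinarith [hN]
  have c2 : crd (v + u) (v - u) B = -‖A - B‖ := by
    unfold crd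
    simp only [Complex.sub_re, Complex.sub_im, Complex.add_re, Complex.add_im]
    rw [hure, huim]
    field_simp
    nlinarith [hN]
  -- nearby good points
  have hev : ∀ᶠ p : ℂ × ℂ in 𝓝 (v + u, v - u), 0 < crd p.1 p.2 A ∧ crd p.1 p.2 B < 0 ∧ p.1 ≠ p.2 := by
    have hcA : Continuous fun p : ℂ × ℂ => crd p.1 p.2 A :=
      continuous_crd.comp (by fun_prop : Continuous fun p : ℂ × ℂ => (p.1, p.2, A))
    have hcB : Continuous fun p : ℂ × ℂ => crd p.1 p.2 B :=
      continuous_crd.comp (by fun_prop : Continuous fun p : ℂ × ℂ => (p.1, p.2, B))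
    refine Filter.Eventually.and ?_ (Filter.Eventually.and ?_ ?_)
    · exact (isOpen_lt continuous_const hcA).mem_nhds (show 0 < crd (v + u) (v - u) A by rw [c1]; exact hn)
    · exact (isOpen_lt hcB continuous_const).mem_nhds
        (show crd (v + u) (v - u) B < 0 by rw [c2]; linarith)
    · refine (isOpen_ne_fun continuous_fst continuous_snd).mem_nhds ?_
      intro h3
      have h3 : v + u = v - u := h3
      have : u = 0 := by linear_combination h3 / 2
      rw [this, norm_zero] at hu1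
      exact zero_ne_one hu1
  rw [nhds_prod_eq, Filter.eventually_prod_iff] at hev
  obtain ⟨pa, ha, pb, hb, habp⟩ := hev
  obtain ⟨O1, hO1, hO1o, hVO1⟩ := _root_.mem_nhds_iff.1 ha
  obtain ⟨O2, hO2, hO2o, hVO2⟩ := _root_.mem_nhds_iff.1 hb
  obtain ⟨W1, hW1, hG1⟩ := h.exists_good hM hO1o hVO1
  obtain ⟨W2, hW2, hG2⟩ := h.exists_good hM' hO2o hVO2
  obtain ⟨k1, k2, k3⟩ := habp (hO1 hW1) (hO2 hW2)
  -- intermediate value
  have hc : ContinuousOn (fun t => crd W1 W2 (F t)) (Icc a b) := by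
    have : Continuous fun P : ℂ => crd W1 W2 P :=
      continuous_crd.comp (by fun_prop : Continuous fun P : ℂ => (W1, W2, P))
    exact this.comp_continuousOn hF
  have hmem : (0 : ℝ) ∈ Ioo (crd W1 W2 (F b)) (crd W1 W2 (F a)) := ⟨k2, k1⟩
  obtain ⟨t, ht, ht0⟩ := intermediate_value_Ioo' hab hc hmem
  refine ⟨t, ht, ?_⟩
  rcases crd_zero hG1.1 hG2.1 (hFv t ⟨ht.1.le, ht.2.le⟩) k3 ht0 with h4 | h4
  · rw [h4]; exact hG1
  · rw [h4]; exact hG2

theorem cis_re1 (t : ℝ) : (cis t).re = Real.cos t := by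
  unfold cis
  exact Complex.exp_ofReal_mul_I_re t

theorem cis_im1 (t : ℝ) : (cis t).im = Real.sin t := by
  unfold cis
  exact Complex.exp_ofReal_mul_I_im t

theorem continuousAt_foot {v : ℂ} {q : ℝ → ℂ} (hq : Continuous q) (σ : ℝ) {t : ℝ} (ht : q t ≠ v) :
    ContinuousAt (fun s => foot v (q s) σ) t := by
  have hn : ‖q t - v‖ ^ 2 ≠ 0 := pow_ne_zero 2 (norm_ne_zero_iff.2 (sub_ne_zero.2 ht))
  unfold foot
  have h1 : ContinuousAt (fun s => ‖q s - v‖ ^ 2) t := by fun_prop
  have h2 : ContinuousAt (fun s => Real.sqrt (1 / ‖q s - v‖ ^ 2 - 1 / 4)) t :=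
    ((continuousAt_const.div h1 hn).sub continuousAt_const).sqrt
  have h3 : ContinuousAt (fun s => ((σ * Real.sqrt (1 / ‖q s - v‖ ^ 2 - 1 / 4) : ℝ) : ℂ)) t :=
    Complex.continuous_ofReal.continuousAt.comp (continuousAt_const.mul h2)
  have h4 : ContinuousAt (fun s => Complex.I * (q s - v)) t := by fun_prop
  have h5 : ContinuousAt (fun s => (v + q s) / 2) t := by fun_prop
  exact h5.add (h3.mul h4)

/-- a point at constant distance one from a point moving on an arc about `z` is `z` -/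
theorem eq_of_const {z w V : ℂ} (hw : w ≠ 0) {a b : ℝ} (hab : a < b)
    (hall : ∀ t ∈ Ioo a b, dist V (z + w * cis t) = 1) : V = z := by
  -- two derivatives would do; we use three angles
  have key : ∀ t ∈ Ioo a b, ‖V - z‖ ^ 2 + ‖w‖ ^ 2 - 2 * ((V - z) * (starRingEnd ℂ) (w * cis t)).re = 1 := by
    intro t ht
    have h1 := hall t ht
    rw [dist_eq_norm] at h1
    have h2 : ‖V - (z + w * cis t)‖ ^ 2 = 1 := by rw [h1, one_pow]
    have h3 : ‖w * cis t‖ ^ 2 = ‖w‖ ^ 2 := by rw [norm_mul, norm_cis, mul_one]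
    rw [← h3]
    have h4 : V - (z + w * cis t) = (V - z) - w * cis t := by ring
    rw [h4, Complex.sq_norm, Complex.normSq_sub] at h2
    rw [Complex.sq_norm, Complex.sq_norm]
    exact h2
  by_contra hne
  have hc0 : (V - z) * (starRingEnd ℂ) w ≠ 0 :=
    mul_ne_zero (sub_ne_zero.2 hne) ((map_ne_zero _).2 hw)
  set c : ℂ := (V - z) * (starRingEnd ℂ) w with hc
  have key2 : ∀ t ∈ Ioo a b, c.re * Real.cos t + c.im * Real.sin t =
      (‖V - z‖ ^ 2 + ‖w‖ ^ 2 - 1) / 2 := by
    intro t ht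
    have h1 := key t ht
    have h2 : (V - z) * (starRingEnd ℂ) (w * cis t) = c * (starRingEnd ℂ) (cis t) := by
      rw [map_mul, hc]; ring
    rw [h2, Complex.mul_re, Complex.conj_re, Complex.conj_im, cis_re1, cis_im1] at h1
    linarith
  -- derivative of the constant function
  have hder : ∀ t ∈ Ioo a b, -c.re * Real.sin t + c.im * Real.cos t = 0 := by
    intro t ht
    have h1 : HasDerivAt (fun s : ℝ => c.re * Real.cos s + c.im * Real.sin s)
        (c.re * (-Real.sin t) + c.im * Real.cos t) t :=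
      ((Real.hasDerivAt_cos t).const_mul _).add ((Real.hasDerivAt_sin t).const_mul _)
    have h2 : (fun s : ℝ => c.re * Real.cos s + c.im * Real.sin s) =ᶠ[𝓝 t]
        fun _ => (‖V - z‖ ^ 2 + ‖w‖ ^ 2 - 1) / 2 := by
      filter_upwards [isOpen_Ioo.mem_nhds ht] with s hs using key2 s hs
    have h3 := (h1.congr_of_eventuallyEq h2.symm).unique (hasDerivAt_const t _)
    linarith
  have hder2 : ∀ t ∈ Ioo a b, -c.re * Real.cos t - c.im * Real.sin t = 0 := by
    intro t ht
    have h1 : HasDerivAt (fun s : ℝ => -c.re * Real.sin s + c.im * Real.cos s)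
        (-c.re * Real.cos t + c.im * (-Real.sin t)) t :=
      ((Real.hasDerivAt_sin t).const_mul _).add ((Real.hasDerivAt_cos t).const_mul _)
    have h2 : (fun s : ℝ => -c.re * Real.sin s + c.im * Real.cos s) =ᶠ[𝓝 t] fun _ => (0 : ℝ) := by
      filter_upwards [isOpen_Ioo.mem_nhds ht] with s hs using hder s hs
    have h3 := (h1.congr_of_eventuallyEq h2.symm).unique (hasDerivAt_const t _)
    linarith
  have ht : (a + b) / 2 ∈ Ioo a b := ⟨by linarith, by linarith⟩
  have g1 := hder _ ht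
  have g2 := hder2 _ ht
  have g3 := Real.sin_sq_add_cos_sq ((a + b) / 2)
  set S := Real.sin ((a + b) / 2)
  set K := Real.cos ((a + b) / 2)
  have r0 : c.re = 0 := by
    have : c.re * (S ^ 2 + K ^ 2) = 0 := by linear_combination (-S) * g1 - K * g2
    rwa [g3, mul_one] at this
  have i0 : c.im = 0 := by
    have : c.im * (S ^ 2 + K ^ 2) = 0 := by linear_combination K * g1 - S * g2
    rwa [g3, mul_one] at this
  exact hc0 (Complex.ext r0 i0)

/-- one foot -/
theorem Irr.rot_foot (h : Irr U T) (z v : ℂ) {w : ℂ} (hw : w ≠ 0) {σ : ℝ} (hσ : σ * σ = 1)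
    {a b : ℝ} (hab : a < b) (hne : ∀ t ∈ Ioo a b, z + w * cis t ≠ v)
    (hle : ∀ t ∈ Ioo a b, dist (z + w * cis t) v ≤ 2) :
    ∃ a' b', a ≤ a' ∧ a' < b' ∧ b' ≤ b ∧
      ∀ t ∈ Ioo a' b', foot v (z + w * cis t) σ = z ∨ foot v (z + w * cis t) σ ∈ Gc T v := by
  set q : ℝ → ℂ := fun t => z + w * cis t with hq
  have hqc : Continuous q := continuous_const.add (continuous_const.mul continuous_cis)
  set F : ℝ → ℂ := fun t => foot v (q t) σ with hF
  have hFc : ∀ t ∈ Ioo a b, ContinuousAt F t := fun t ht => continuousAt_foot hqc σ (hne t ht)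
  have hFv : ∀ t ∈ Ioo a b, dist (F t) v = 1 := fun t ht => dist_foot_z (hne t ht) (hle t ht) hσ
  have hFq : ∀ t ∈ Ioo a b, dist (F t) (q t) = 1 := fun t ht => dist_foot_q (hne t ht) (hle t ht) hσ
  by_cases hconst : ∀ s ∈ Ioo a b, ∀ t ∈ Ioo a b, F s = F t
  · -- constant foot
    have ht0 : (a + b) / 2 ∈ Ioo a b := ⟨by linarith, by linarith⟩
    have hz : F ((a + b) / 2) = z := eq_of_const hw hab fun t ht => by
      rw [hconst _ ht0 t ht]
      exact hFq t ht
    exact ⟨a, b, le_rfl, hab, le_rfl, fun t ht => Or.inl ((hconst t ht _ ht0).trans hz)⟩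
  · push Not at hconst
    obtain ⟨s, hs, t, ht, hst⟩ := hconst
    -- order the two angles
    obtain ⟨s', t', hs', ht', hlt, hne'⟩ : ∃ s' t', s' ∈ Ioo a b ∧ t' ∈ Ioo a b ∧ s' ≤ t' ∧
        F s' ≠ F t' := by
      rcases le_total s t with h1 | h1
      · exact ⟨s, t, hs, ht, h1, hst⟩
      · exact ⟨t, s, ht, hs, h1, hst.symm⟩
    have hsub : Icc s' t' ⊆ Ioo a b := fun r hr => ⟨hs'.1.trans_le hr.1, hr.2.trans_lt ht'.2⟩
    obtain ⟨r, hr, hG⟩ := h.exists_good_on hlt (fun r hr => (hFc r (hsub hr)).continuousWithinAt)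
      (fun r hr => hFv r (hsub hr)) hne'
    have hrab : r ∈ Ioo a b := hsub ⟨hr.1.le, hr.2.le⟩
    -- good points are open on the circle
    have hev : ∀ᶠ x in 𝓝 r, F x ∈ Gc T v := by
      have h1 : F r ∈ (sphere v (1 : ℝ) \ Gc T v)ᶜ := fun hcon => hcon.2 hG
      filter_upwards [(hFc r hrab).eventually ((isClosed_bad T v).isOpen_compl.mem_nhds h1),
        isOpen_Ioo.mem_nhds hrab] with x hx hxab
      by_contra hcon
      exact hx ⟨hFv x hxab, hcon⟩
    obtain ⟨ε, hε, hball⟩ := Metric.eventually_nhds_iff.1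
      (hev.and (isOpen_Ioo.mem_nhds hrab))
    refine ⟨Max.max a (r - ε), Min.min b (r + ε), le_max_left _ _, ?_, min_le_left _ _, ?_⟩
    · have := hrab.1
      have := hrab.2
      rw [max_lt_iff, lt_min_iff, lt_min_iff]
      exact ⟨⟨hab, by linarith⟩, by linarith, by linarith⟩
    · intro x hx
      right
      refine (hball ?_).1
      rw [Real.dist_eq, abs_lt]
      have h1 := (le_max_right a (r - ε)).trans_lt hx.1
      have h2 := hx.2.trans_le (min_le_right b (r + ε))
      exact ⟨by linarith, by linarith⟩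

/-- **Feet of a rotating point.** -/
theorem Irr.rot_feet (h : Irr U T) (z v : ℂ) {w : ℂ} (hw : w ≠ 0) {a b : ℝ} (hab : a < b) :
    ∃ a' b', a ≤ a' ∧ a' < b' ∧ b' ≤ b ∧ ∀ t ∈ Ioo a' b', ∀ V, dist V v = 1 →
      dist V (z + w * cis t) = 1 → V = z ∨ V ∈ Gc T v := by
  have hqc : Continuous fun t => z + w * cis t :=
    continuous_const.add (continuous_const.mul continuous_cis)
  -- avoid `v`
  obtain ⟨a1, b1, ha1, hab1, hb1, hne⟩ : ∃ a1 b1, a ≤ a1 ∧ a1 < b1 ∧ b1 ≤ b ∧
      ∀ t ∈ Ioo a1 b1, z + w * cis t ≠ v := by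
    obtain ⟨t0, ht0, hne0⟩ : ∃ t0 ∈ Ioo a b, z + w * cis t0 ≠ v := by
      by_contra hcon
      push Not at hcon
      have h1 : v + 1 = z := eq_of_const hw hab fun t ht => by
        rw [hcon t ht, dist_eq_norm, add_sub_cancel_left, norm_one]
      have h2 : v - 1 = z := eq_of_const hw hab fun t ht => by
        rw [hcon t ht, dist_eq_norm, show v - 1 - v = -1 by ring, norm_neg, norm_one]
      have : (1 : ℂ) = 0 := by linear_combination (h1 - h2) / 2
      exact one_ne_zero this
    have hev : ∀ᶠ t in 𝓝 t0, z + w * cis t ≠ v ∧ t ∈ Ioo a b :=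
      (hqc.continuousAt.eventually_ne hne0).and (isOpen_Ioo.mem_nhds ht0)
    obtain ⟨ε, hε, hball⟩ := Metric.eventually_nhds_iff.1 hev
    refine ⟨Max.max a (t0 - ε), Min.min b (t0 + ε), le_max_left _ _, ?_, min_le_left _ _, ?_⟩
    · have := ht0.1
      have := ht0.2
      rw [max_lt_iff, lt_min_iff, lt_min_iff]
      exact ⟨⟨hab, by linarith⟩, by linarith, by linarith⟩
    · intro x hx
      refine (hball ?_).1
      rw [Real.dist_eq, abs_lt]
      have h1 := (le_max_right a (t0 - ε)).trans_lt hx.1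
      have h2 := hx.2.trans_le (min_le_right b (t0 + ε))
      exact ⟨by linarith, by linarith⟩
  by_cases hle : ∀ t ∈ Ioo a1 b1, dist (z + w * cis t) v ≤ 2
  · obtain ⟨a2, b2, h1, h2, h3, h4⟩ := h.rot_foot z v hw (σ := 1) (by norm_num) hab1 hne hle
    have hsub : Ioo a2 b2 ⊆ Ioo a1 b1 := Ioo_subset_Ioo h1 h3
    obtain ⟨a3, b3, k1, k2, k3, k4⟩ := h.rot_foot z v hw (σ := -1) (by norm_num) h2
      (fun t ht => hne t (hsub ht)) (fun t ht => hle t (hsub ht))
    refine ⟨a3, b3, by linarith, k2, by linarith, fun t ht V hV hVq => ?_⟩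
    have ht2 : t ∈ Ioo a2 b2 := ⟨k1.trans_lt ht.1, ht.2.trans_le k3⟩
    rcases eq_foot (hne t (hsub ht2)) hV hVq with rfl | rfl
    · exact h4 t ht2
    · exact k4 t ht
  · push Not at hle
    obtain ⟨t0, ht0, hgt⟩ := hle
    have hev : ∀ᶠ t in 𝓝 t0, 2 < dist (z + w * cis t) v ∧ t ∈ Ioo a1 b1 :=
      ((hqc.dist continuous_const).continuousAt.eventually (isOpen_Ioi.mem_nhds hgt)).and
        (isOpen_Ioo.mem_nhds ht0)
    obtain ⟨ε, hε, hball⟩ := Metric.eventually_nhds_iff.1 hev
    refine ⟨Max.max a1 (t0 - ε), Min.min b1 (t0 + ε), ha1.trans (le_max_left _ _), ?_,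
      (min_le_left _ _).trans hb1, ?_⟩
    · have := ht0.1
      have := ht0.2
      rw [max_lt_iff, lt_min_iff, lt_min_iff]
      exact ⟨⟨hab1, by linarith⟩, by linarith, by linarith⟩
    · intro x hx V hV hVq
      exfalso
      have h1 := (le_max_right a1 (t0 - ε)).trans_lt hx.1
      have h2 := hx.2.trans_le (min_le_right b1 (t0 + ε))
      have h3 := (hball (y := x) (by rw [Real.dist_eq, abs_lt]; exact ⟨by linarith, by linarith⟩)).1
      have h4 := dist_triangle (z + w * cis x) V v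
      rw [dist_comm _ V, hVq, hV] at h4
      linarith

/-- the feet of all moving points on all circles are good -/
theorem Irr.cfg_rot (h : Irr U T) {J C : Type*} [Finite J] [Finite C] (bs w : J → ℂ)
    (hw : ∀ j, w j ≠ 0) (z : C → ℂ) {a b : ℝ} (hab : a < b) :
    ∃ a' b', a ≤ a' ∧ a' < b' ∧ b' ≤ b ∧ ∀ t ∈ Ioo a' b', ∀ j,
      (∀ᶠ s in 𝓝 t, T (bs j + w j * cis s) = T (bs j + w j * cis t)) ∧
      (∀ᶠ s in 𝓝 t, Pal U (bs j + w j * cis s) = Pal U (bs j + w j * cis t)) ∧
      ∀ c V, dist V (z c) = 1 → dist V (bs j + w j * cis t) = 1 → V = bs j ∨ V ∈ Gc T (z c) := by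
  classical
  have := Fintype.ofFinite J
  have := Fintype.ofFinite C
  -- all feet, by induction on the finite set of pairs
  have key : ∀ s : Finset (J × C), ∃ a' b', a ≤ a' ∧ a' < b' ∧ b' ≤ b ∧ ∀ t ∈ Ioo a' b',
      ∀ p ∈ s, ∀ V, dist V (z p.2) = 1 → dist V (bs p.1 + w p.1 * cis t) = 1 →
        V = bs p.1 ∨ V ∈ Gc T (z p.2) := by
    intro s
    induction s using Finset.induction_on with
    | empty => exact ⟨a, b, le_rfl, hab, le_rfl, fun t _ p hp => absurd hp (Finset.notMem_empty p)⟩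
    | insert p s _ ih =>
      obtain ⟨a1, b1, h1, h2, h3, h4⟩ := ih
      obtain ⟨a2, b2, k1, k2, k3, k4⟩ := h.rot_feet (bs p.1) (z p.2) (hw p.1) h2
      refine ⟨a2, b2, by linarith, k2, by linarith, fun t ht p' hp' => ?_⟩
      rcases Finset.mem_insert.1 hp' with rfl | hp'
      · exact k4 t ht
      · exact h4 t ⟨k1.trans_lt ht.1, ht.2.trans_le k3⟩ p' hp'
  obtain ⟨a1, b1, h1, h2, h3, h4⟩ := key Finset.univ
  -- local constancy
  have hd := h.dense_lc (ι := J) (f := fun j (t : ℝ) => bs j + w j * cis t)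
    (fun j => continuous_const.add (continuous_const.mul continuous_cis))
  obtain ⟨t0, ht0, ht0'⟩ := hd.1.inter_open_nonempty (Ioo a1 b1) isOpen_Ioo (nonempty_Ioo.2 h2)
  have hev : ∀ᶠ t in 𝓝 t0, t ∈ (⋂ j, LcP U (fun t : ℝ => bs j + w j * cis t) ∩
      LcT T (fun t : ℝ => bs j + w j * cis t)) ∧ t ∈ Ioo a1 b1 :=
    (show ∀ᶠ t in 𝓝 t0, t ∈ (⋂ j, LcP U (fun t : ℝ => bs j + w j * cis t) ∩
      LcT T (fun t : ℝ => bs j + w j * cis t)) from hd.2.mem_nhds ht0').and
      (isOpen_Ioo.mem_nhds ht0)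
  obtain ⟨ε, hε, hball⟩ := Metric.eventually_nhds_iff.1 hev
  refine ⟨Max.max a1 (t0 - ε), Min.min b1 (t0 + ε), h1.trans (le_max_left _ _), ?_,
    (min_le_left _ _).trans h3, ?_⟩
  · have := ht0.1
    have := ht0.2
    rw [max_lt_iff, lt_min_iff, lt_min_iff]
    exact ⟨⟨h2, by linarith⟩, by linarith, by linarith⟩
  · intro t ht j
    have g1 := (le_max_right a1 (t0 - ε)).trans_lt ht.1
    have g2 := ht.2.trans_le (min_le_right b1 (t0 + ε))
    have g3 := hball (y := t) (by rw [Real.dist_eq, abs_lt]; exact ⟨by linarith, by linarith⟩)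
    have g4 := mem_iInter.1 g3.1 j
    exact ⟨g4.2, g4.1, fun c V hV hVq => h4 t g3.2 (j, c) (Finset.mem_univ _) V hV hVq⟩

end Vale.Agent.P032.Six
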