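import Vale.Agent.P032.H587.Gen

/-!
# P032: generic parameters in two steps, and the sweep rule (frame `Irr U T`, any number of colours)

* `dense_section` : an open dense set of `X × Y` has dense sections over a dense set of `X` (Baire).
* `generic1`, `generic2` : generic parameters for finitely many nodes of one and of two parameters.
* `nhds_two`, `pt1` : a node with two independent parameters at a generic parameter is one coloured.
* `sweep` : a colour in the palette of `c + β * cis b'` for all `b'` near `b` is absent from all points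
  at distance one which are not on the line through `c + β * cis b` in direction `β * cis b`.
-/

open Set Filter Topology Metric

noncomputable section

namespace Vale.Agent.P032.H657

open Vale.Agent.P032.Six

variable {k : ℕ} {U : Fin k → Set ℂ} {T : ℂ → Set (Fin k)}

/-- sections of an open dense set -/
theorem dense_section {X Y : Type*} [TopologicalSpace X] [BaireSpace X] [TopologicalSpace Y]
    [SecondCountableTopology Y] {O : Set (X × Y)} (ho : IsOpen O) (hd : Dense O) :
    Dense {x : X | Dense {y : Y | (x, y) ∈ O}} := by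
  let B := TopologicalSpace.countableBasis Y
  have hB : TopologicalSpace.IsTopologicalBasis B := TopologicalSpace.isBasis_countableBasis Y
  let A : Set Y → Set X := fun V => {x | ∃ y ∈ V, (x, y) ∈ O}
  have hA1 : ∀ V ∈ B, IsOpen (A V) := by
    intro V hV
    have : A V = Prod.fst '' (O ∩ (univ ×ˢ V)) := by
      ext x
      constructor
      · rintro ⟨y, hy, hxy⟩
        exact ⟨(x, y), ⟨hxy, trivial, hy⟩, rfl⟩
      · rintro ⟨⟨x', y⟩, ⟨hxy, -, hy⟩, rfl⟩
        exact ⟨y, hy, hxy⟩
    rw [this]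
    exact isOpenMap_fst _ (ho.inter (isOpen_univ.prod (hB.isOpen hV)))
  have hA2 : ∀ V ∈ B, Dense (A V) := by
    intro V hV x
    rw [_root_.mem_closure_iff]
    intro W hW hxW
    obtain ⟨y, hy⟩ := TopologicalSpace.nonempty_of_mem_countableBasis hV
    obtain ⟨⟨x', y'⟩, h1, h2⟩ := hd.inter_open_nonempty (W ×ˢ V) (hW.prod (hB.isOpen hV))
      ⟨(x, y), hxW, hy⟩
    exact ⟨x', h1.1, y', h1.2, h2⟩
  have h1 : Dense (⋂ V ∈ B, A V) :=
    dense_biInter_of_isOpen (fun V hV => hA1 V hV) (TopologicalSpace.countable_countableBasis Y) hA2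
  refine h1.mono fun x hx => ?_
  rw [mem_iInter₂] at hx
  show Dense {y : Y | (x, y) ∈ O}
  intro y
  rw [_root_.mem_closure_iff]
  intro W hW hyW
  obtain ⟨V, hV, hyV, hVW⟩ := hB.exists_subset_of_mem_open hyW hW
  obtain ⟨y', hy', hxy⟩ := hx V hV
  exact ⟨y', hVW hy', hxy⟩

/-- **Generic parameter**, one parameter: in every nonempty open set, for finitely many nodes, all
palettes are locally constant -/
theorem generic1 {X : Type*} [TopologicalSpace X] {ι : Type*} [Finite ι] (h : Irr U T) {f : ι → X → ℂ}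
    (hf : ∀ i, Continuous (f i)) {O : Set X} (hO : IsOpen O) (hne : O.Nonempty) :
    ∃ a ∈ O, ∀ i, (∀ᶠ a' in 𝓝 a, T (f i a') = T (f i a)) ∧
      ∀ᶠ a' in 𝓝 a, Pal U (f i a') = Pal U (f i a) := by
  obtain ⟨a, ha, haO⟩ := (h.dense_lc hf).1.inter_open_nonempty O hO hne
  rw [mem_iInter] at haO
  exact ⟨a, ha, fun i => ⟨(haO i).2, (haO i).1⟩⟩

/-- **Generic parameters**, two parameters: in every nonempty open set of first parameters there is `a`
such that the nodes `f i` are locally constant at `a` and, for an open dense set of `b`, the nodes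
`g j` are locally constant at `(a, b)` -/
theorem generic2 {X Y : Type*} [TopologicalSpace X] [BaireSpace X] [TopologicalSpace Y]
    [SecondCountableTopology Y] {ι κ : Type*} [Finite ι] [Finite κ] (h : Irr U T) {f : ι → X → ℂ}
    (hf : ∀ i, Continuous (f i)) {g : κ → X × Y → ℂ} (hg : ∀ j, Continuous (g j)) {O : Set X}
    (hO : IsOpen O) (hne : O.Nonempty) :
    ∃ a ∈ O, (∀ i, (∀ᶠ a' in 𝓝 a, T (f i a') = T (f i a)) ∧
      ∀ᶠ a' in 𝓝 a, Pal U (f i a') = Pal U (f i a)) ∧
      ∃ G : Set Y, IsOpen G ∧ Dense G ∧ ∀ b ∈ G, ∀ j,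
        (∀ᶠ q in 𝓝 (a, b), T (g j q) = T (g j (a, b))) ∧
        ∀ᶠ q in 𝓝 (a, b), Pal U (g j q) = Pal U (g j (a, b)) := by
  obtain ⟨h1, h2⟩ := h.dense_lc hf
  obtain ⟨h3, h4⟩ := h.dense_lc hg
  have h5 := dense_section h4 h3
  obtain ⟨a, ⟨haO, ha1⟩, ha2⟩ := h5.inter_open_nonempty (O ∩ ⋂ i, LcP U (f i) ∩ LcT T (f i))
    (hO.inter h2) (by
      obtain ⟨a, ha, ha'⟩ := h1.inter_open_nonempty O hO hne
      exact ⟨a, ha, ha'⟩)
  rw [mem_iInter] at ha1
  refine ⟨a, haO, fun i => ⟨(ha1 i).2, (ha1 i).1⟩, {b | (a, b) ∈ ⋂ j, LcP U (g j) ∩ LcT T (g j)},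
    h4.preimage (by fun_prop), ha2, fun b hb j => ?_⟩
  have hb' : (a, b) ∈ ⋂ j, LcP U (g j) ∩ LcT T (g j) := hb
  rw [mem_iInter] at hb'
  exact ⟨(hb' j).2, (hb' j).1⟩

/-- Cramer -/
theorem solve_two (w : ℂ) {p q : ℂ} (hdet : p.re * q.im - p.im * q.re ≠ 0) :
    ∃ s t : ℝ, (s : ℂ) * p + (t : ℂ) * q = w := by
  refine ⟨(w.re * q.im - w.im * q.re) / (p.re * q.im - p.im * q.re),
    (p.re * w.im - p.im * w.re) / (p.re * q.im - p.im * q.re), ?_⟩
  set d := p.re * q.im - p.im * q.re with hd
  apply Complex.ext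
  · rw [Complex.add_re, Complex.re_ofReal_mul, Complex.re_ofReal_mul]
    field_simp
    rw [hd]
    ring
  · rw [Complex.add_im, Complex.im_ofReal_mul, Complex.im_ofReal_mul]
    field_simp
    rw [hd]
    ring

/-- two independent directions: neighbourhoods of the parameters go to neighbourhoods of the node -/
theorem nhds_two {c α β : ℂ} {a b : ℝ} (hne : (α * cis a * (starRingEnd ℂ) (β * cis b)).im ≠ 0) :
    map (fun q : ℝ × ℝ => c + α * cis q.1 + β * cis q.2) (𝓝 (a, b)) = 𝓝 (c + α * cis a + β * cis b) := by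
  have hs : ∀ t : ℝ, HasStrictDerivAt cis (Complex.I * cis t) t := by
    intro t
    have h1 : HasStrictDerivAt (fun t : ℝ => Complex.exp (t * Complex.I))
        (Complex.exp (t * Complex.I) * (1 * Complex.I)) t := by
      have h2 : HasStrictDerivAt (fun t : ℝ => (t : ℂ) * Complex.I) (1 * Complex.I) t := by
        have h3 : HasStrictDerivAt (fun t : ℝ => (t : ℂ)) 1 t :=
          Complex.ofRealCLM.hasStrictDerivAt
        exact h3.mul_const Complex.I
      exact h2.cexp
    have h4 : Complex.exp (t * Complex.I) * (1 * Complex.I) = Complex.I * cis t := by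
      rw [cis]; ring
    rw [h4] at h1
    exact h1
  have h1 : HasStrictFDerivAt (fun q : ℝ × ℝ => c + α * cis q.1 + β * cis q.2)
      ((ContinuousLinearMap.fst ℝ ℝ ℝ).smulRight (α * (Complex.I * cis a)) +
        (ContinuousLinearMap.snd ℝ ℝ ℝ).smulRight (β * (Complex.I * cis b))) (a, b) := by
    have h2 : HasStrictFDerivAt (fun q : ℝ × ℝ => cis q.1)
        ((ContinuousLinearMap.fst ℝ ℝ ℝ).smulRight (Complex.I * cis a)) (a, b) := by
      have := (hs a).hasStrictFDerivAt.comp (a, b) (hasStrictFDerivAt_fst (𝕜 := ℝ) (p := (a, b)))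
      refine this.congr_fderiv ?_
      ext <;> simp
    have h3 : HasStrictFDerivAt (fun q : ℝ × ℝ => cis q.2)
        ((ContinuousLinearMap.snd ℝ ℝ ℝ).smulRight (Complex.I * cis b)) (a, b) := by
      have := (hs b).hasStrictFDerivAt.comp (a, b) (hasStrictFDerivAt_snd (𝕜 := ℝ) (p := (a, b)))
      refine this.congr_fderiv ?_
      ext <;> simp
    have h4 := ((h2.const_mul α).const_add c).add (h3.const_mul β)
    refine h4.congr_fderiv ?_
    ext <;> simp
  refine h1.map_nhds_eq_of_surj ?_
  rw [LinearMap.range_eq_top]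
  intro w
  -- solve the linear system
  set p : ℂ := α * (Complex.I * cis a) with hp
  set q : ℂ := β * (Complex.I * cis b) with hq
  have hdet : p.re * q.im - p.im * q.re ≠ 0 := by
    intro hcon
    apply hne
    have h5 : α * cis a = -Complex.I * p := by
      rw [hp]
      linear_combination (α * cis a) * Complex.I_mul_I
    have h6 : β * cis b = -Complex.I * q := by
      rw [hq]
      linear_combination (β * cis b) * Complex.I_mul_I
    rw [h5, h6]
    simp only [map_mul, map_neg, Complex.conj_I, Complex.mul_im, Complex.mul_re, Complex.neg_re,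
      Complex.neg_im, Complex.I_re, Complex.I_im, Complex.conj_re, Complex.conj_im]
    linarith
  obtain ⟨s, t, hst⟩ := solve_two w hdet
  exact ⟨(s, t), by simpa using hst⟩

/-- a generic node with two independent parameters has one colour, and owns all colours of its palette -/
theorem pt1 (h : Irr U T) {c α β : ℂ} {a b : ℝ} (hne : (α * cis a * (starRingEnd ℂ) (β * cis b)).im ≠ 0)
    (hT : ∀ᶠ q in 𝓝 (a, b), T (c + α * cis q.1 + β * cis q.2) = T (c + α * cis a + β * cis b))
    (hP : ∀ᶠ q in 𝓝 (a, b), Pal U (c + α * cis q.1 + β * cis q.2) =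
      Pal U (c + α * cis a + β * cis b)) :
    (∃ i, T (c + α * cis a + β * cis b) = {i}) ∧
      ∀ i ∈ Pal U (c + α * cis a + β * cis b), c + α * cis a + β * cis b ∈ U i := by
  set x := c + α * cis a + β * cis b with hx
  have hT' : ∀ᶠ w in 𝓝 x, T w = T x := by
    rw [hx, ← nhds_two hne, eventually_map]
    exact hT
  have hP' : ∀ᶠ w in 𝓝 x, Pal U w = Pal U x := by
    rw [hx, ← nhds_two hne, eventually_map]
    exact hP
  constructor
  · obtain ⟨i, hi⟩ := h.ne x
    obtain ⟨w, hw1, hw2⟩ := ((h.pure x i hi).and_eventually hT').exists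
    exact ⟨i, by rw [← hw2, hw1]⟩
  · intro i hi
    refine h.int_closure (mem_interior_iff_mem_nhds.2 ?_)
    filter_upwards [hP'] with w hw
    have : i ∈ Pal U w := by rw [hw]; exact hi
    exact this

/-- **Sweep**: a moving point with the colour `i` -/
theorem sweep (h : Mx U) {c β : ℂ} {b : ℝ} {i : Fin k} (hi : ∀ᶠ b' in 𝓝 b, i ∈ Pal U (c + β * cis b'))
    {w : ℂ} (hw : dist (c + β * cis b) w = 1)
    (hne : ((w - (c + β * cis b)) * (starRingEnd ℂ) (β * cis b)).im ≠ 0) : i ∉ Pal U w := by
  intro hiw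
  have h1 : HasDerivAt (fun b' : ℝ => c + β * cis b') (β * (Complex.I * cis b)) b :=
    ((hasDerivAt_cis b).const_mul β).const_add c
  have h2 := h.curve_perp h1 (by have := continuous_cis; fun_prop) hi hw hiw
  apply hne
  simp only [Complex.mul_im, Complex.mul_re, Complex.conj_re, Complex.conj_im, Complex.sub_re,
    Complex.sub_im, Complex.add_re, Complex.add_im, Complex.I_re, Complex.I_im] at h2 ⊢
  linarith

/-- `cis` of a sum with an argument -/
theorem cis_arg {b : ℝ} {ζ : ℂ} : cis (b + ζ.arg) * ‖ζ‖ = cis b * ζ := by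
  have h1 : cis (b + ζ.arg) = cis b * cis ζ.arg := by
    simp only [cis]
    rw [← Complex.exp_add]
    push_cast
    ring_nf
  have h2 : (‖ζ‖ : ℂ) * Complex.exp (ζ.arg * Complex.I) = ζ := Complex.norm_mul_exp_arg_mul_I ζ
  rw [h1]
  simp only [cis] at h2 ⊢
  linear_combination (Complex.exp (b * Complex.I)) * h2

/-- **Envelopes.**  The point `c + β * cis b'` moves with the colour `i`; `w0 = c + μ * β * cis b` is at distance
one from it, on the line through `c`.  Then near `w0` the colour `i` is absent from all points whose distance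
to the circle of the moving point is less than one. -/
theorem env (h : Mx U) {c β : ℂ} {b μ : ℝ} (hμ : 0 < μ) (hβ : β ≠ 0) (hρ : |μ - 1| * ‖β‖ = 1)
    {i : Fin k} (hi : ∀ᶠ b' in 𝓝 b, i ∈ Pal U (c + β * cis b')) :
    ∀ᶠ w in 𝓝 (c + μ * (β * cis b)), |dist w c - ‖β‖| < 1 → i ∉ Pal U w := by
  obtain ⟨η, hη, hball⟩ := Metric.mem_nhds_iff.1 hi
  set η' := min η 1 with hη'
  have hη0 : 0 < η' := lt_min hη one_pos
  have hcis : cis b ≠ 0 := by
    intro hcon
    have := norm_cis b
    rw [hcon, norm_zero] at this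
    exact zero_ne_one this
  have hβc : β * cis b ≠ 0 := mul_ne_zero hβ hcis
  -- the coordinate `ζ`
  let Z : ℂ → ℂ := fun w => (w - c) / (β * cis b)
  have hZ0 : Z (c + μ * (β * cis b)) = μ := by
    simp only [Z, add_sub_cancel_left]
    field_simp
  have hZc : Continuous Z := by fun_prop
  have hμ1 : (μ : ℂ) ∈ Complex.slitPlane := by
    rw [Complex.mem_slitPlane_iff]; left; simpa using hμ
  have h1 : ∀ᶠ w in 𝓝 (c + μ * (β * cis b)), |(Z w).arg| < η' := by
    have h2 : Tendsto (fun w => |(Z w).arg|) (𝓝 (c + μ * (β * cis b))) (𝓝 |(μ : ℂ).arg|) := by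
      have h3 : ContinuousAt (fun w => (Z w).arg) (c + μ * (β * cis b)) := by
        refine ContinuousAt.comp (g := Complex.arg) ?_ hZc.continuousAt
        rw [hZ0]
        exact Complex.continuousAt_arg hμ1
      have h4 := h3.abs.tendsto
      simp only [hZ0] at h4
      exact h4
    refine h2.eventually_lt_const ?_
    rw [Complex.arg_ofReal_of_nonneg hμ.le, abs_zero]
    exact hη0
  have h2 : ∀ᶠ w in 𝓝 (c + μ * (β * cis b)), Z w ≠ 0 := by
    refine hZc.continuousAt.eventually_ne ?_
    rw [hZ0]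
    exact_mod_cast hμ.ne'
  -- a far point
  have hfar : 1 < dist (c + β * cis (b + η' / 2)) (c + μ * (β * cis b)) := by
    have e1 : c + β * cis (b + η' / 2) - (c + μ * (β * cis b)) = β * cis b * (cis (η' / 2) - μ) := by
      have : cis (b + η' / 2) = cis b * cis (η' / 2) := by
        simp only [cis]
        rw [← Complex.exp_add]
        push_cast
        ring_nf
      rw [this]; ring
    rw [dist_eq_norm, e1, norm_mul, norm_mul, norm_cis, mul_one, ← hρ, mul_comm]
    refine mul_lt_mul_of_pos_left ?_ (norm_pos_iff.2 hβ)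
    have e2 : cis (η' / 2) = Real.cos (η' / 2) + Real.sin (η' / 2) * Complex.I := by
      simp only [cis]
      rw [Complex.exp_mul_I]
      push_cast
      rfl
    have hc1 : Real.cos (η' / 2) < 1 := by
      have h5 : 0 < η' / 2 := by linarith
      have h6 : η' / 2 ≤ Real.pi := by
        have : η' ≤ 1 := min_le_right _ _
        linarith [Real.pi_gt_three]
      rw [← Real.cos_zero]
      exact Real.cos_lt_cos_of_nonneg_of_le_pi le_rfl h6 h5
    have e3 : ‖cis (η' / 2) - μ‖ ^ 2 = (Real.cos (η' / 2) - μ) ^ 2 + Real.sin (η' / 2) ^ 2 := by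
      rw [e2, ← Complex.normSq_eq_norm_sq, Complex.normSq_apply]
      simp [-Complex.ofReal_cos, -Complex.ofReal_sin]
      ring
    refine lt_of_pow_lt_pow_left₀ 2 (norm_nonneg _) ?_
    rw [e3, sq_abs]
    nlinarith [Real.sin_sq_add_cos_sq (η' / 2)]
  have h3 : ∀ᶠ w in 𝓝 (c + μ * (β * cis b)), 1 < dist (c + β * cis (b + η' / 2)) w :=
    (continuous_const.dist continuous_id).continuousAt.eventually_const_lt hfar
  filter_upwards [h1, h2, h3] with w hw1 hw2 hw3 hlt
  have hQ : IsPreconnected ((fun b' : ℝ => c + β * cis b') '' ball b η) := by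
    have hc := continuous_cis
    exact (convex_ball b η).isPreconnected.image _ (by fun_prop)
  have e4 : w - c = β * cis b * Z w := by
    simp only [Z]
    field_simp
  have e5 : dist w c = ‖β‖ * ‖Z w‖ := by
    rw [dist_eq_norm, e4, norm_mul, norm_mul, norm_cis, mul_one]
  refine h.wlemma (i := i) hQ ?_ (z := w) (a := c + β * cis (b + (Z w).arg))
    (b := c + β * cis (b + η' / 2)) ⟨_, ?_, rfl⟩ ⟨_, ?_, rfl⟩ ?_ hw3
  · rintro _ ⟨b', hb', rfl⟩
    exact hball hb'
  · rw [mem_ball, Real.dist_eq, add_sub_cancel_left]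
    exact hw1.trans_le (min_le_left _ _)
  · rw [mem_ball, Real.dist_eq, add_sub_cancel_left, abs_of_pos (by linarith)]
    have := min_le_left η 1
    linarith
  · -- the near point
    have hζ : 0 < ‖Z w‖ := norm_pos_iff.2 hw2
    have e6 : (c + β * cis (b + (Z w).arg) - w) * (‖Z w‖ : ℂ) = β * cis b * Z w * ((1 - ‖Z w‖ : ℝ) : ℂ) := by
      have e7 := cis_arg (b := b) (ζ := Z w)
      have e8 : w = c + β * cis b * Z w := by rw [← e4]; ring
      have e9 : c + β * cis (b + (Z w).arg) - w = β * cis (b + (Z w).arg) - β * cis b * Z w := by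
        rw [← e4]; ring
      rw [e9]
      push_cast
      linear_combination β * e7
    have e10 : dist (c + β * cis (b + (Z w).arg)) w * ‖Z w‖ = ‖β‖ * ‖Z w‖ * |1 - ‖Z w‖| := by
      have := congrArg norm e6
      rw [norm_mul, norm_mul, norm_mul, norm_mul, norm_cis, mul_one, Complex.norm_real,
        Complex.norm_real, Real.norm_eq_abs, Real.norm_eq_abs, abs_of_pos hζ] at this
      rw [dist_eq_norm]
      exact this
    have e11 : dist (c + β * cis (b + (Z w).arg)) w = ‖β‖ * |1 - ‖Z w‖| := by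
      have : dist (c + β * cis (b + (Z w).arg)) w * ‖Z w‖ = ‖β‖ * |1 - ‖Z w‖| * ‖Z w‖ := by
        rw [e10]; ring
      exact mul_right_cancel₀ hζ.ne' this
    rw [e11]
    rw [e5] at hlt
    have e12 : ‖β‖ * ‖Z w‖ - ‖β‖ = -(‖β‖ * (1 - ‖Z w‖)) := by ring
    rw [e12, abs_neg, abs_mul, abs_of_pos (norm_pos_iff.2 hβ)] at hlt
    exact hlt

end Vale.Agent.P032.H657
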